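import Mathlib
import Crest.Agent.X212.Sm10.Defs
import Crest.Agent.X212.Alg36.Hp3

-- ▼ part X212/Mol27/Defs
section

/-!
# X212 / Mol27 (helper27): barycentric coordinates and their mollification

* `Bary E V` : barycentric coordinates `lam : E → V → ℝ` of a geometric complex on an open set `U`;
* `Mol B W δ` : a smooth map `Λ : E → V → ℝ` which is `δ`-close to `lam` on `W` and whose derivative
  is EXACTLY `e t - e s` on `x t - x s` whenever `s, t` have weight `≥ δ`.
-/

set_option autoImplicit false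
set_option linter.unusedSectionVars false

open Set Filter Topology Function Metric MeasureTheory
open scoped ContDiff Convolution

noncomputable section

namespace Crest.Agent.X212.Mol27

variable {E : Type} [NormedAddCommGroup E] [NormedSpace ℝ E]
variable {V : Type} [Fintype V] [DecidableEq V]

/-- the vertex `s` of the big simplex -/
def e (s : V) : V → ℝ := Pi.single s 1

/-- `μ` is a point of the face `σ` of the big simplex -/
def InF (σ : Finset V) (μ : V → ℝ) : Prop :=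
  (∀ s, 0 ≤ μ s) ∧ ∑ s, μ s = 1 ∧ ∀ s, μ s ≠ 0 → s ∈ σ

/-- the point with coordinates `μ` -/
def pt (x : V → E) (μ : V → ℝ) : E := ∑ s, μ s • x s

/-- barycentric coordinates of a finite geometric complex on the open set `U` -/
structure Bary (E : Type) [NormedAddCommGroup E] [NormedSpace ℝ E] (V : Type) [Fintype V] where
  x : V → E
  faces : Set (Finset V)
  U : Set E
  lam : E → V → ℝ
  isOpen : IsOpen U
  lip : LocallyLipschitzOn U lam
  car : ∀ y ∈ U, ∃ σ ∈ faces, InF σ (lam y)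
  pos : ∀ y ∈ U, pt x (lam y) = y
  uniq : ∀ σ ∈ faces, ∀ μ, InF σ μ → pt x μ ∈ U → lam (pt x μ) = μ

theorem pt_add (x : V → E) (μ ν : V → ℝ) : pt x (μ + ν) = pt x μ + pt x ν := by
  simp [pt, add_smul, Finset.sum_add_distrib]

theorem pt_sub (x : V → E) (μ ν : V → ℝ) : pt x (μ - ν) = pt x μ - pt x ν := by
  simp [pt, sub_smul, Finset.sum_sub_distrib]

theorem pt_smul (x : V → E) (r : ℝ) (μ : V → ℝ) : pt x (r • μ) = r • pt x μ := by
  simp [pt, Finset.smul_sum, mul_smul]

@[simp] theorem pt_e (x : V → E) (s : V) : pt x (e s) = x s := by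
  simp [pt, e, Pi.single_apply, ite_smul]

@[simp] theorem pt_zero (x : V → E) : pt x 0 = 0 := by simp [pt]

theorem pt_sum {ι : Type} (x : V → E) (S : Finset ι) (μ : ι → V → ℝ) :
    pt x (∑ i ∈ S, μ i) = ∑ i ∈ S, pt x (μ i) := by
  simp only [pt, Finset.sum_apply, Finset.sum_smul]
  exact Finset.sum_comm

/-- `pt` as a continuous linear map -/
def ptL (x : V → E) : (V → ℝ) →L[ℝ] E :=
  LinearMap.toContinuousLinearMap
    { toFun := pt x, map_add' := pt_add x, map_smul' := pt_smul x }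

@[simp] theorem ptL_apply (x : V → E) (μ : V → ℝ) : ptL x μ = pt x μ := rfl

@[simp] theorem sum_e (s : V) : ∑ t, e s t = 1 := by simp [e, Pi.single_apply]

theorem e_apply (s t : V) : e s t = if t = s then 1 else 0 := by simp [e, Pi.single_apply]

namespace Bary

variable (B : Bary E V)

theorem cont : ContinuousOn B.lam B.U := B.lip.continuousOn

theorem nonneg {y : E} (hy : y ∈ B.U) (s : V) : 0 ≤ B.lam y s :=
  (B.car y hy).choose_spec.2.1 s

theorem sum_one {y : E} (hy : y ∈ B.U) : ∑ s, B.lam y s = 1 :=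
  (B.car y hy).choose_spec.2.2.1

theorem le_one {y : E} (hy : y ∈ B.U) (s : V) : B.lam y s ≤ 1 :=
  (B.sum_one hy) ▸ Finset.single_le_sum (fun t _ => B.nonneg hy t) (Finset.mem_univ s)

theorem norm_le {y : E} (hy : y ∈ B.U) : ‖B.lam y‖ ≤ 1 :=
  (pi_norm_le_iff_of_nonneg zero_le_one).2 fun s => by
    rw [Real.norm_of_nonneg (B.nonneg hy s)]; exact B.le_one hy s

/-- moving inside the carrier -/
theorem move {y : E} (hy : y ∈ B.U) {w : V → ℝ} (h0 : ∑ s, w s = 0)
    (hs : ∀ s, w s ≠ 0 → B.lam y s ≠ 0) (hn : ∀ s, 0 ≤ B.lam y s + w s)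
    (hU : y + pt B.x w ∈ B.U) : B.lam (y + pt B.x w) = B.lam y + w := by
  obtain ⟨σ, hσ, h1, h2, h3⟩ := B.car y hy
  have e1 : y + pt B.x w = pt B.x (B.lam y + w) := by rw [pt_add, B.pos y hy]
  rw [e1] at hU ⊢
  refine B.uniq σ hσ _ ⟨hn, by simp [Finset.sum_add_distrib, h2, h0], fun s h => ?_⟩ hU
  by_cases hw : w s = 0
  · exact h3 s (by simpa [hw] using h)
  · exact h3 s (hs s hw)

end Bary

/-- tangent vectors of the face spanned by the vertices of weight `≥ δ` -/
def Tg (δ : ℝ) (μ : V → ℝ) (w : V → ℝ) : Prop := ∑ s, w s = 0 ∧ ∀ s, w s ≠ 0 → δ ≤ μ s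

/-- a mollification of the barycentric coordinates on `W` -/
structure Mol (B : Bary E V) (W : Set E) (δ : ℝ) where
  Λ : E → V → ℝ
  smooth : ContDiff ℝ ∞ Λ
  nonneg : ∀ y s, 0 ≤ Λ y s
  sum_le : ∀ y, ∑ s, Λ y s ≤ 1
  sum_one : ∀ y ∈ W, ∑ s, Λ y s = 1
  close : ∀ y ∈ W, ∀ s, |Λ y s - B.lam y s| < δ
  supp : ∀ y ∈ W, ∀ s, Λ y s ≠ 0 → ∃ σ ∈ B.faces, s ∈ σ ∧ ∀ t, δ ≤ B.lam y t → t ∈ σ
  der : ∀ y ∈ W, ∀ w, Tg δ (B.lam y) w → fderiv ℝ Λ y (pt B.x w) = w
  pos : ∀ y ∈ W, pt B.x (Λ y) = y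

end Crest.Agent.X212.Mol27
end
end

-- ▼ part X212/Mol27/Ex
section

/-!
# X212 / Mol27 (helper27): existence of mollifications
-/

set_option autoImplicit false
set_option linter.unusedSectionVars false

open Set Filter Topology Function Metric MeasureTheory
open scoped ContDiff Convolution

noncomputable section

namespace Crest.Agent.X212.Mol27

variable {E : Type} [NormedAddCommGroup E] [NormedSpace ℝ E] [FiniteDimensional ℝ E]

/-- an average of radius `η` -/
theorem exists_avg (η : ℝ) (hη : 0 < η) {F : Type} [NormedAddCommGroup F] [NormedSpace ℝ F]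
    [CompleteSpace F] {U : Set E} {g : E → F} (hU : IsOpen U) (hg : ContinuousOn g U)
    (hb : ∀ y ∈ U, ‖g y‖ ≤ 1) :
    ∃ A : E → F, ContDiff ℝ ∞ A ∧
      (∀ (ℓ : F →L[ℝ] ℝ) (y : E) (c : ℝ), (∀ t ∈ ball (0 : E) η, ℓ (U.indicator g (y - t)) ≤ c) →
        ℓ (A y) ≤ c) ∧
      (∀ (y y' : E) (c : F),
        (∀ t ∈ ball (0 : E) η, U.indicator g (y' - t) = U.indicator g (y - t) + c) →
        A y' = A y + c) ∧
      (∀ (L : F →L[ℝ] E) (y : E), (∀ t ∈ ball (0 : E) η, L (U.indicator g (y - t)) = y - t) →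
        L (A y) = y) := by
  borelize E
  let μ : Measure E := Measure.addHaar
  let φ : ContDiffBump (0 : E) := ⟨η / 2, η, by linarith, by linarith⟩
  have hsup : ∀ t, t ∉ ball (0 : E) η → φ.normed μ t = 0 := fun t ht => by
    by_contra h
    exact ht (φ.support_normed_eq (μ := μ) ▸ (show t ∈ support (φ.normed μ) from h))
  have hm : AEStronglyMeasurable (U.indicator g) μ :=
    (aestronglyMeasurable_indicator_iff hU.measurableSet).2 (hg.aestronglyMeasurable hU.measurableSet)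
  have hli : LocallyIntegrable (U.indicator g) μ := by
    refine (locallyIntegrable_const (μ := μ) (1 : ℝ)).mono hm (Eventually.of_forall fun y => ?_)
    by_cases hy : y ∈ U
    · simpa [hy] using hb y hy
    · simp [hy]
  have hint : ∀ y, Integrable (fun t => φ.normed μ t • U.indicator g (y - t)) μ := fun y =>
    (φ.hasCompactSupport_normed.convolutionExists_left (ContinuousLinearMap.lsmul ℝ ℝ)
      φ.continuous_normed hli y).integrable
  have hdef : ∀ y, (φ.normed μ ⋆[ContinuousLinearMap.lsmul ℝ ℝ, μ] U.indicator g) y =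
      ∫ t, φ.normed μ t • U.indicator g (y - t) ∂μ := fun y => rfl
  refine ⟨φ.normed μ ⋆[ContinuousLinearMap.lsmul ℝ ℝ, μ] U.indicator g,
    φ.hasCompactSupport_normed.contDiff_convolution_left _ φ.contDiff_normed hli, ?_, ?_, ?_⟩
  · intro ℓ y c h
    rw [hdef, ← ℓ.integral_comp_comm (hint y)]
    have h1 : ∫ t, φ.normed μ t • c ∂μ = c := φ.integral_normed_smul (μ := μ) c
    rw [← h1]
    refine integral_mono (ℓ.integrable_comp (hint y)) (φ.integrable_normed.smul_const c) fun t => ?_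
    by_cases ht : t ∈ ball (0 : E) η
    · simpa using mul_le_mul_of_nonneg_left (h t ht) (φ.nonneg_normed (μ := μ) t)
    · simp [hsup t ht]
  · intro y y' c h
    rw [hdef, hdef]
    have h1 : ∫ t, φ.normed μ t • c ∂μ = c := φ.integral_normed_smul (μ := μ) c
    conv_rhs => rw [← h1]
    rw [← integral_add (hint y) (φ.integrable_normed.smul_const c)]
    refine integral_congr_ae (Eventually.of_forall fun t => ?_)
    by_cases ht : t ∈ ball (0 : E) η
    · simp only [h t ht, smul_add]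
    · simp [hsup t ht]
  · intro L y h
    rw [hdef, ← L.integral_comp_comm (hint y)]
    have h1 : ∫ t, φ.normed μ t • y ∂μ = y := φ.integral_normed_smul (μ := μ) y
    have h2 : Integrable (fun t : E => φ.normed μ t • t) μ :=
      (φ.continuous_normed.smul continuous_id).integrable_of_hasCompactSupport
        φ.hasCompactSupport_normed.smul_right
    have h3 : ∫ t, φ.normed μ t • t ∂μ = 0 := by
      have h4 := integral_neg_eq_self (fun t : E => φ.normed μ t • t) μ
      simp only [φ.normed_neg, smul_neg, integral_neg] at h4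
      have h5 : (2 : ℝ) • ∫ t, φ.normed μ t • t ∂μ = 0 := by
        rw [two_smul]; nth_rewrite 1 [← h4]; exact neg_add_cancel _
      simpa using h5
    have h6 : ∫ t, L (φ.normed μ t • U.indicator g (y - t)) ∂μ =
        ∫ t, (φ.normed μ t • y - φ.normed μ t • t) ∂μ := by
      refine integral_congr_ae (Eventually.of_forall fun t => ?_)
      by_cases ht : t ∈ ball (0 : E) η
      · simp only [map_smul, h t ht, smul_sub]
      · simp [hsup t ht]
    rw [h6, integral_sub (φ.integrable_normed.smul_const y) h2, h1, h3, sub_zero]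

variable {V : Type} [Fintype V] [DecidableEq V]

/-- **mollification** of barycentric coordinates near a compact set -/
theorem Bary.exists_mol (B : Bary E V) {K : Set E} (hK : IsCompact K) (hKU : K ⊆ B.U) {δ : ℝ}
    (hδ : 0 < δ) : ∃ W : Set E, IsOpen W ∧ K ⊆ W ∧ IsCompact (closure W) ∧ closure W ⊆ B.U ∧
      Nonempty (Mol B W δ) := by
  have : ProperSpace E := FiniteDimensional.proper ℝ E
  obtain ⟨r3, hr3, h3⟩ := hK.exists_cthickening_subset_open B.isOpen hKU
  set r := r3 / 3 with hr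
  have hr0 : 0 < r := by positivity
  have hK3 : IsCompact (cthickening r3 K) := hK.cthickening
  obtain ⟨η0, hη0, hu⟩ := Metric.uniformContinuousOn_iff.1
    (hK3.uniformContinuousOn_of_continuous (B.cont.mono h3)) (δ / 2) (by positivity)
  set η := min η0 r with hηd
  have hη : 0 < η := lt_min hη0 hr0
  obtain ⟨Λ, a1, a2, a3, a4⟩ := exists_avg η hη B.isOpen B.cont fun y hy => B.norm_le hy
  have near : ∀ y ∈ thickening r K, ∀ z, dist z y < 2 * r → z ∈ cthickening r3 K := by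
    intro y hy z hz
    obtain ⟨k, hk, hyk⟩ := mem_thickening_iff.1 hy
    refine mem_cthickening_of_dist_le z k r3 K hk ?_
    have := dist_triangle z y k
    linarith
  have hW : ∀ y ∈ thickening r K, y ∈ cthickening r3 K := fun y hy =>
    near y hy y (by rw [dist_self]; positivity)
  have hb : ∀ y ∈ thickening r K, ∀ t ∈ ball (0 : E) η, y - t ∈ cthickening r3 K ∧
      ∀ s, |B.lam (y - t) s - B.lam y s| < δ / 2 := by
    intro y hy t ht
    have ht' : dist (y - t) y < η := by simpa [dist_eq_norm] using ht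
    have h1 : y - t ∈ cthickening r3 K :=
      near y hy _ (by have := min_le_right η0 r; linarith)
    refine ⟨h1, fun s => ?_⟩
    have h2 := hu _ h1 _ (hW y hy) (ht'.trans_le (min_le_left _ _))
    exact (dist_le_pi_dist (B.lam (y - t)) (B.lam y) s).trans_lt h2
  have ind : ∀ z, (∀ s, 0 ≤ B.U.indicator B.lam z s) ∧ ∑ s, B.U.indicator B.lam z s ≤ 1 := by
    intro z
    by_cases hz : z ∈ B.U
    · rw [indicator_of_mem hz]; exact ⟨B.nonneg hz, (B.sum_one hz).le⟩
    · rw [indicator_of_notMem hz]; simp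
  let pr : V → (V → ℝ) →L[ℝ] ℝ := fun s => ContinuousLinearMap.proj s
  let sm : (V → ℝ) →L[ℝ] ℝ := ∑ s, pr s
  have hsm : ∀ μ : V → ℝ, sm μ = ∑ s, μ s := fun μ => by simp [sm, pr]
  have up : ∀ y s c, (∀ t ∈ ball (0 : E) η, B.U.indicator B.lam (y - t) s ≤ c) → Λ y s ≤ c :=
    fun y s c h => a2 (pr s) y c h
  have dn : ∀ y s c, (∀ t ∈ ball (0 : E) η, c ≤ B.U.indicator B.lam (y - t) s) → c ≤ Λ y s :=
    fun y s c h => by
      have := a2 (-pr s) y (-c) fun t ht => by simpa [pr] using h t ht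
      simpa [pr] using this
  have hcl : closure (thickening r K) ⊆ cthickening r3 K :=
    (closure_thickening_subset_cthickening r K).trans (cthickening_mono (by linarith) K)
  refine ⟨thickening r K, isOpen_thickening, self_subset_thickening hr0 K,
    hK3.of_isClosed_subset isClosed_closure hcl, hcl.trans h3, ⟨⟨Λ, a1, ?_, ?_, ?_, ?_, ?_, ?_, ?_⟩⟩⟩
  · exact fun y s => dn y s 0 fun t _ => (ind _).1 s
  · intro y
    rw [← hsm]
    exact a2 sm y 1 fun t _ => by rw [hsm]; exact (ind _).2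
  · intro y hy
    rw [← hsm]
    refine le_antisymm (a2 sm y 1 fun t _ => by rw [hsm]; exact (ind _).2) ?_
    have := a2 (-sm) y (-1) fun t ht => by
      have h1 := h3 (hb y hy t ht).1
      simp [hsm, indicator_of_mem h1, B.sum_one h1]
    simpa using this
  · intro y hy s
    have h1 := up y s (B.lam y s + δ / 2) fun t ht => by
      have h := hb y hy t ht
      rw [indicator_of_mem (h3 h.1)]
      linarith [(abs_lt.1 (h.2 s)).2]
    have h2 := dn y s (B.lam y s - δ / 2) fun t ht => by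
      have h := hb y hy t ht
      rw [indicator_of_mem (h3 h.1)]
      linarith [(abs_lt.1 (h.2 s)).1]
    rw [abs_lt]; constructor <;> linarith
  · intro y hy s hs
    by_contra hc
    refine hs (le_antisymm (up y s 0 fun t ht => ?_) (dn y s 0 fun t _ => (ind _).1 s))
    have h := hb y hy t ht
    rw [indicator_of_mem (h3 h.1)]
    obtain ⟨σ, hσ, -, -, k3⟩ := B.car _ (h3 h.1)
    by_contra hn
    refine hc ⟨σ, hσ, k3 s (fun h0 => hn h0.le), fun u hu => k3 u fun h0 => ?_⟩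
    have := (abs_lt.1 (h.2 u)).1
    linarith
  · intro y hy w hw
    have hev : ∀ᶠ ρ : ℝ in 𝓝 0, Λ (y + ρ • pt B.x w) = Λ y + ρ • w := by
      have e1 : ∀ᶠ ρ : ℝ in 𝓝 0, ‖ρ • pt B.x w‖ < r := by
        have : Continuous fun ρ : ℝ => ‖ρ • pt B.x w‖ := by fun_prop
        exact this.continuousAt.eventually_lt continuousAt_const (by simpa using hr0)
      have e2 : ∀ᶠ ρ : ℝ in 𝓝 0, ‖ρ • w‖ < δ / 2 := by
        have : Continuous fun ρ : ℝ => ‖ρ • w‖ := by fun_prop
        exact this.continuousAt.eventually_lt continuousAt_const (by simpa using hδ)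
      filter_upwards [e1, e2] with ρ k1 k2
      refine a3 y _ _ fun t ht => ?_
      have h := hb y hy t ht
      have hin : y - t + pt B.x (ρ • w) ∈ B.U := by
        refine h3 (near y hy _ ?_)
        rw [pt_smul, dist_eq_norm, show y - t + ρ • pt B.x w - y = ρ • pt B.x w - t by abel]
        have h4 : ‖t‖ < η := by simpa using ht
        have := norm_sub_le (ρ • pt B.x w) t
        have := min_le_right η0 r
        linarith
      have big : ∀ s, w s ≠ 0 → δ / 2 < B.lam (y - t) s := fun s hs => by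
        have := hw.2 s hs
        have := (abs_lt.1 (h.2 s)).1
        linarith
      have hm := B.move (h3 h.1) (w := ρ • w) (by simp [← Finset.mul_sum, hw.1])
        (fun s hs => by
          have : w s ≠ 0 := fun h0 => hs (by simp [h0])
          have := big s this
          exact fun h0 => by linarith)
        (fun s => by
          by_cases hs : w s = 0
          · simpa [hs] using B.nonneg (h3 h.1) s
          · have k3 := (norm_le_pi_norm (ρ • w) s).trans_lt k2
            have := big s hs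
            have := (abs_lt.1 (show |(ρ • w) s| < δ / 2 from k3)).1
            linarith) hin
      rw [show y + ρ • pt B.x w - t = y - t + pt B.x (ρ • w) by rw [pt_smul]; abel,
        indicator_of_mem hin, indicator_of_mem (h3 h.1), hm]
    have d1 : HasDerivAt (fun ρ : ℝ => Λ (y + ρ • pt B.x w)) (fderiv ℝ Λ y (pt B.x w)) 0 := by
      have l1 : HasDerivAt (fun ρ : ℝ => y + ρ • pt B.x w) (pt B.x w) 0 := by
        simpa using ((hasDerivAt_id (0 : ℝ)).smul_const (pt B.x w)).const_add y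
      have l2 : HasFDerivAt Λ (fderiv ℝ Λ y) (y + (0 : ℝ) • pt B.x w) := by
        simpa using (a1.differentiable (by simp) y).hasFDerivAt
      exact l2.comp_hasDerivAt 0 l1
    have d2 : HasDerivAt (fun ρ : ℝ => Λ y + ρ • w) w 0 := by
      simpa using ((hasDerivAt_id (0 : ℝ)).smul_const w).const_add (Λ y)
    exact d1.unique (d2.congr_of_eventuallyEq hev)
  · intro y hy
    refine a4 (ptL B.x) y fun t ht => ?_
    have h := h3 (hb y hy t ht).1
    rw [indicator_of_mem h, ptL_apply, B.pos _ h]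

end Crest.Agent.X212.Mol27
end
end

-- ▼ part X212/Mol27/Real
section

/-!
# X212 / Mol27 (helper27): realisations of order complexes give barycentric coordinates
-/

set_option autoImplicit false
set_option linter.unusedSectionVars false

open Set Filter Topology Function Metric
open scoped ContDiff NNReal
open Crest.Agent.X212.Sm10

noncomputable section

namespace Crest.Agent.X212.Mol27

/-- a continuous map which is Lipschitz on each of finitely many closed sets covering a convex set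
is Lipschitz -/
theorem lip_of_cover {E F ι : Type*} [NormedAddCommGroup E] [NormedSpace ℝ E] [NormedAddCommGroup F]
    [Finite ι] {f : E → F} {U : Set E} (hU : Convex ℝ U) (hf : ContinuousOn f U) {C : ι → Set E}
    (hC : ∀ i, IsClosed (C i)) (hcov : U ⊆ ⋃ i, C i) {K : ℝ≥0}
    (hK : ∀ i, LipschitzOnWith K f (C i ∩ U)) : LipschitzOnWith K f U := by
  refine LipschitzOnWith.of_dist_le_mul fun y hy x hx => ?_
  set g : ℝ → E := fun t => x + t • (y - x) with hg
  have gc : Continuous g := by fun_prop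
  have gU : ∀ t ∈ Icc (0 : ℝ) 1, g t ∈ U := fun t ht => hU.add_smul_sub_mem hx hy ht
  have gd : ∀ s t : ℝ, s ≤ t → dist (g t) (g s) = (t - s) * dist y x := fun s t h => by
    rw [dist_eq_norm, show g t - g s = (t - s) • (y - x) by simp only [hg, sub_smul]; abel,
      norm_smul, Real.norm_of_nonneg (sub_nonneg.2 h), dist_eq_norm]
  have key : (1 : ℝ) ∈ {t : ℝ | dist (f (g t)) (f x) ≤ K * (t * dist y x)} := by
    refine IsClosed.mem_of_ge_of_forall_exists_gt ?_ (by simp [hg]) zero_le_one ?_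
    · rw [inter_comm]
      exact isClosed_Icc.isClosed_le 
        (continuous_dist.comp_continuousOn
          ((hf.comp gc.continuousOn gU).prodMk (continuousOn_const (c := f x))))
        (by fun_prop : Continuous fun t : ℝ => (K : ℝ) * (t * dist y x)).continuousOn
    · rintro t ⟨ht, ht0, ht1⟩
      have h1 : t ∈ closure (⋃ i, g ⁻¹' C i ∩ Ioc t 1) := by
        refine closure_mono (s := Ioc t 1) (fun s hs => ?_) (by rw [closure_Ioc ht1.ne]; exact ⟨le_rfl, ht1.le⟩)
        obtain ⟨i, hi⟩ := mem_iUnion.1 (hcov (gU s ⟨ht0.trans hs.1.le, hs.2⟩))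
        exact mem_iUnion.2 ⟨i, hi, hs⟩
      rw [closure_iUnion_of_finite] at h1
      obtain ⟨i, hi⟩ := mem_iUnion.1 h1
      obtain ⟨s, hs1, hs2⟩ := closure_nonempty_iff.1 ⟨t, hi⟩
      have h2 : g t ∈ C i :=
        ((hC i).preimage gc).closure_subset (closure_mono inter_subset_left hi)
      have h3 := (hK i).dist_le_mul _ ⟨hs1, gU s ⟨ht0.trans hs2.1.le, hs2.2⟩⟩ _ ⟨h2, gU t ⟨ht0, ht1.le⟩⟩
      refine ⟨s, ?_, hs2⟩
      have h4 := dist_triangle (f (g s)) (f (g t)) (f x)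
      rw [gd t s hs2.1.le] at h3
      have h5 : dist (f (g t)) (f x) ≤ K * (t * dist y x) := ht
      show dist (f (g s)) (f x) ≤ K * (s * dist y x)
      nlinarith
  simpa [hg] using key

variable {P : Type} [PartialOrder P] [Fintype P] [DecidableEq P] {E : Type} [NormedAddCommGroup E]
  [NormedSpace ℝ E] [FiniteDimensional ℝ E]

/-- the coordinates are Lipschitz on convex subsets -/
theorem exists_lip (R : Real P E) :
    ∃ K : ℝ≥0, ∀ U, Convex ℝ U → U ⊆ R.B → LipschitzOnWith K R.wt U := by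
  classical
  have h := fun c : {c : Set P // IsChain (· ≤ ·) c} => R.exists_aff c.2
  choose L b _ hL using h
  refine ⟨Finset.univ.sup fun c => ‖L c‖₊, fun U hU hB => ?_⟩
  refine lip_of_cover hU (R.continuousOn_wt.mono hB)
    (C := fun c : {c : Set P // IsChain (· ≤ ·) c} => R.spx c.1)
    (fun c => (R.isCompact_spx c.1).isClosed) (fun p hp => mem_iUnion.2
      ⟨⟨_, (Real.wt_mem (hB hp)).chain⟩, Real.mem_spx_support (hB hp)⟩) fun c => ?_
  refine LipschitzOnWith.of_dist_le_mul fun p hp q hq => ?_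
  rw [hL c p hp.1, hL c q hq.1, dist_add_right]
  refine ((L c).lipschitz.dist_le_mul p q).trans (mul_le_mul_of_nonneg_right ?_ dist_nonneg)
  exact_mod_cast Finset.le_sup (f := fun c => ‖L c‖₊) (Finset.mem_univ c)

theorem pt_eq_cmb (x : P → E) (μ : P → ℝ) : pt x μ = cmb x μ := rfl

/-- the barycentric coordinates of a realisation, on the interior -/
def bary (R : Real P E) : Bary E P where
  x := R.x
  faces := {c | IsChain (· ≤ ·) (c : Set P)}
  U := interior R.B
  lam := R.wt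
  isOpen := isOpen_interior
  lip := fun y hy => by
    obtain ⟨K, hK⟩ := exists_lip R
    obtain ⟨r, hr, h⟩ := Metric.isOpen_iff.1 isOpen_interior y hy
    exact ⟨K, ball y r, mem_nhdsWithin_of_mem_nhds (ball_mem_nhds y hr),
      hK _ (convex_ball y r) (h.trans interior_subset)⟩
  car := fun y hy => by
    have h := Real.wt_mem (interior_subset hy)
    refine ⟨Finset.univ.filter fun s => R.wt y s ≠ 0, ?_, h.nonneg, h.sum, fun s hs => by simpa using hs⟩
    refine h.chain.mono fun s hs => ?_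
    simpa using hs
  pos := fun y hy => Real.cmb_wt (interior_subset hy)
  uniq := fun σ hσ μ hμ _ => Real.wt_cmb (IsWt.mk' hσ hμ.1 hμ.2.1 fun s hs => hμ.2.2 s hs)

@[simp] theorem bary_x (R : Real P E) : (bary R).x = R.x := rfl
@[simp] theorem bary_lam (R : Real P E) : (bary R).lam = R.wt := rfl
@[simp] theorem bary_U (R : Real P E) : (bary R).U = interior R.B := rfl
theorem mem_bary_faces (R : Real P E) {c : Finset P} :
    c ∈ (bary R).faces ↔ IsChain (· ≤ ·) (c : Set P) := Iff.rfl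

end Crest.Agent.X212.Mol27
end
end

-- ▼ part X212/Mol27/Fld
section

/-!
# X212 / Mol27 (helper27): the upward field

`upV c δ μ = ∑_{s<t} c s t ψ(μ s) ψ(μ t) (e t - e s)` on the big simplex, and its lift `M.fld c`.
-/

set_option autoImplicit false
set_option linter.unusedSectionVars false

open Set Filter Topology Function Metric
open scoped ContDiff NNReal
open Crest.Agent.X212.Sm10

noncomputable section

namespace Crest.Agent.X212.Mol27

/-- zero below `2 δ`, the identity above `3 δ` -/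
def psi (δ x : ℝ) : ℝ := x * Real.smoothTransition ((x - 2 * δ) / δ)

theorem contDiff_psi (δ : ℝ) : ContDiff ℝ ∞ (psi δ) :=
  contDiff_id.mul (Real.smoothTransition.contDiff.comp ((contDiff_id.sub contDiff_const).div_const δ))

theorem psi_zero {δ x : ℝ} (hδ : 0 < δ) (h : x ≤ 2 * δ) : psi δ x = 0 := by
  rw [psi, Real.smoothTransition.zero_of_nonpos (div_nonpos_of_nonpos_of_nonneg (by linarith) hδ.le),
    mul_zero]

theorem psi_pos {δ x : ℝ} (hδ : 0 < δ) (h : 2 * δ < x) : 0 < psi δ x :=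
  mul_pos (by linarith) (Real.smoothTransition.pos_of_pos (div_pos (by linarith) hδ))

theorem psi_nonneg {δ : ℝ} (hδ : 0 < δ) (x : ℝ) : 0 ≤ psi δ x :=
  (le_or_gt x (2 * δ)).elim (fun h => (psi_zero hδ h).ge) fun h => (psi_pos hδ h).le

theorem psi_eq {δ x : ℝ} (hδ : 0 < δ) (h : 3 * δ ≤ x) : psi δ x = x := by
  rw [psi, Real.smoothTransition.one_of_one_le ((one_le_div hδ).2 (by linarith)), mul_one]

theorem psi_le {δ x : ℝ} (h : 0 ≤ x) : psi δ x ≤ x :=
  mul_le_of_le_one_right h (Real.smoothTransition.le_one _)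

theorem lt_of_psi_ne {δ x : ℝ} (hδ : 0 < δ) (h : psi δ x ≠ 0) : 2 * δ < x :=
  not_le.1 fun h' => h (psi_zero hδ h')

section up

variable {P : Type} [PartialOrder P] [Fintype P] [DecidableEq P]

open Classical in
/-- the rate at which weight moves from `s` up to `t` -/
def rate (c : P → P → ℝ) (δ : ℝ) (μ : P → ℝ) (s t : P) : ℝ :=
  if s < t then c s t * (psi δ (μ s) * psi δ (μ t)) else 0

/-- the upward field on the big simplex -/
def upV (c : P → P → ℝ) (δ : ℝ) (μ : P → ℝ) : P → ℝ :=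
  ∑ s, ∑ t, rate c δ μ s t • (e t - e s)

/-- the pairing of a vertex function with weights -/
def pr (g μ : P → ℝ) : ℝ := ∑ s, g s * μ s

theorem pr_add (g μ ν : P → ℝ) : pr g (μ + ν) = pr g μ + pr g ν := by
  simp [pr, mul_add, Finset.sum_add_distrib]

theorem pr_smul (g : P → ℝ) (r : ℝ) (μ : P → ℝ) : pr g (r • μ) = r * pr g μ := by
  simp only [pr, Finset.mul_sum, Pi.smul_apply, smul_eq_mul]
  exact Finset.sum_congr rfl fun _ _ => by ring

/-- the pairing as a continuous linear map -/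
def prL (g : P → ℝ) : (P → ℝ) →L[ℝ] ℝ :=
  LinearMap.toContinuousLinearMap { toFun := pr g, map_add' := pr_add g, map_smul' := pr_smul g }

@[simp] theorem prL_apply (g μ : P → ℝ) : prL g μ = pr g μ := rfl

theorem pr_sub (g μ ν : P → ℝ) : pr g (μ - ν) = pr g μ - pr g ν := (prL g).map_sub μ ν

@[simp] theorem pr_e (g : P → ℝ) (s : P) : pr g (e s) = g s := by
  simp [pr, e_apply]

theorem pr_e_left (s : P) (μ : P → ℝ) : pr (e s) μ = μ s := by
  simp [pr, e_apply]

theorem pr_upV (g : P → ℝ) (c : P → P → ℝ) (δ : ℝ) (μ : P → ℝ) :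
    pr g (upV c δ μ) = ∑ s, ∑ t, rate c δ μ s t * (g t - g s) := by
  rw [← prL_apply, upV, map_sum]
  refine Finset.sum_congr rfl fun s _ => ?_
  rw [map_sum]
  refine Finset.sum_congr rfl fun t _ => ?_
  rw [map_smul, prL_apply, pr_sub, pr_e, pr_e, smul_eq_mul]

variable {c : P → P → ℝ} {δ : ℝ} {μ : P → ℝ}

theorem rate_nonneg (hc : ∀ s t, 0 ≤ c s t) (hδ : 0 < δ) (μ : P → ℝ) (s t : P) :
    0 ≤ rate c δ μ s t := by
  unfold rate
  split_ifs
  · exact mul_nonneg (hc s t) (mul_nonneg (psi_nonneg hδ _) (psi_nonneg hδ _))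
  · exact le_rfl

theorem rate_ne (hδ : 0 < δ) {s t : P} (h : rate c δ μ s t ≠ 0) :
    s < t ∧ c s t ≠ 0 ∧ 2 * δ < μ s ∧ 2 * δ < μ t := by
  unfold rate at h
  split_ifs at h with h1
  · exact ⟨h1, left_ne_zero_of_mul h, lt_of_psi_ne hδ (left_ne_zero_of_mul (right_ne_zero_of_mul h)),
      lt_of_psi_ne hδ (right_ne_zero_of_mul (right_ne_zero_of_mul h))⟩
  · exact absurd rfl h

theorem rate_pos (hδ : 0 < δ) {s t : P} (h : s < t) (hc : 0 < c s t) (hs : 2 * δ < μ s)
    (ht : 2 * δ < μ t) : 0 < rate c δ μ s t := by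
  rw [rate, if_pos h]
  exact mul_pos hc (mul_pos (psi_pos hδ hs) (psi_pos hδ ht))

theorem contDiff_rate (c : P → P → ℝ) (δ : ℝ) (s t : P) :
    ContDiff ℝ ∞ fun μ : P → ℝ => rate c δ μ s t := by
  unfold rate
  split_ifs
  · exact contDiff_const.mul (((contDiff_psi δ).comp (contDiff_apply ℝ ℝ s)).mul
      ((contDiff_psi δ).comp (contDiff_apply ℝ ℝ t)))
  · exact contDiff_const

theorem contDiff_upV (c : P → P → ℝ) (δ : ℝ) : ContDiff ℝ ∞ (upV c δ) :=
  ContDiff.sum fun s _ => ContDiff.sum fun t _ => (contDiff_rate c δ s t).smul contDiff_const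

theorem sum_upV (c : P → P → ℝ) (δ : ℝ) (μ : P → ℝ) : ∑ s, upV c δ μ s = 0 := by
  have := pr_upV (fun _ => 1) c δ μ
  simpa [pr] using this

theorem upV_apply (c : P → P → ℝ) (δ : ℝ) (μ : P → ℝ) (r : P) :
    upV c δ μ r = ∑ s, rate c δ μ s r - ∑ t, rate c δ μ r t := by
  rw [← pr_e_left r (upV c δ μ), pr_upV]
  simp only [mul_sub, Finset.sum_sub_distrib, e_apply, mul_ite, mul_one, mul_zero,
    Finset.sum_ite_eq', Finset.mem_univ, if_true]
  congr 1
  rw [Finset.sum_comm]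
  simp only [Finset.sum_ite_eq', Finset.mem_univ, if_true]

theorem upV_ne (hδ : 0 < δ) {r : P} (h : upV c δ μ r ≠ 0) : 2 * δ < μ r := by
  by_contra hn
  refine h ?_
  rw [upV_apply, Finset.sum_eq_zero, Finset.sum_eq_zero, sub_zero]
  · exact fun t _ => by_contra fun k => hn (rate_ne hδ k).2.2.1
  · exact fun t _ => by_contra fun k => hn (rate_ne hδ k).2.2.2

/-- a function monotone on the big vertices increases -/
theorem pr_upV_nonneg (hc : ∀ s t, 0 ≤ c s t) (hδ : 0 < δ) {g : P → ℝ}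
    (hg : ∀ s t, s < t → c s t ≠ 0 → 2 * δ < μ s → 2 * δ < μ t → g s ≤ g t) :
    0 ≤ pr g (upV c δ μ) := by
  rw [pr_upV]
  refine Finset.sum_nonneg fun s _ => Finset.sum_nonneg fun t _ => ?_
  by_cases h : rate c δ μ s t = 0
  · simp [h]
  · obtain ⟨h1, h2, h3, h4⟩ := rate_ne hδ h
    exact mul_nonneg (rate_nonneg hc hδ μ s t) (sub_nonneg.2 (hg s t h1 h2 h3 h4))

theorem le_pr_upV (hc : ∀ s t, 0 ≤ c s t) (hδ : 0 < δ) {g : P → ℝ}
    (hg : ∀ s t, s < t → c s t ≠ 0 → 2 * δ < μ s → 2 * δ < μ t → g s ≤ g t) (a b : P) :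
    rate c δ μ a b * (g b - g a) ≤ pr g (upV c δ μ) := by
  rw [pr_upV]
  have nn : ∀ s t, 0 ≤ rate c δ μ s t * (g t - g s) := fun s t => by
    by_cases h : rate c δ μ s t = 0
    · simp [h]
    · obtain ⟨h1, h2, h3, h4⟩ := rate_ne hδ h
      exact mul_nonneg (rate_nonneg hc hδ μ s t) (sub_nonneg.2 (hg s t h1 h2 h3 h4))
  exact (Finset.single_le_sum (f := fun t => rate c δ μ a t * (g t - g a)) (fun t _ => nn a t)
    (Finset.mem_univ b)).trans (Finset.single_le_sum
      (f := fun s => ∑ t, rate c δ μ s t * (g t - g s))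
      (fun s _ => Finset.sum_nonneg fun t _ => nn s t) (Finset.mem_univ a))

/-- it increases strictly if two big vertices have different values -/
theorem pr_upV_pos (hc : ∀ s t, 0 ≤ c s t) (hδ : 0 < δ) {g : P → ℝ}
    (hg : ∀ s t, s < t → c s t ≠ 0 → 2 * δ < μ s → 2 * δ < μ t → g s ≤ g t) {a b : P} (hab : a < b)
    (hcab : 0 < c a b) (ha : 2 * δ < μ a) (hb : 2 * δ < μ b) (hlt : g a < g b) :
    0 < pr g (upV c δ μ) :=
  (mul_pos (rate_pos hδ hab hcab ha hb) (sub_pos.2 hlt)).trans_le (le_pr_upV hc hδ hg a b)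

/-- `|upV r| ≤ C ψ (μ r)` -/
theorem exists_upV_le (c : P → P → ℝ) (hδ : 0 < δ) : ∃ C : ℝ, ∀ μ : P → ℝ, (∀ s, 0 ≤ μ s) →
    (∀ s, μ s ≤ 1) → ∀ r, |upV c δ μ r| ≤ C * psi δ (μ r) := by
  refine ⟨2 * ∑ s, ∑ t, |c s t|, fun μ h0 h1 r => ?_⟩
  have p1 : ∀ s, psi δ (μ s) ≤ 1 := fun s => (psi_le (h0 s)).trans (h1 s)
  have p0 : ∀ s, 0 ≤ psi δ (μ s) := fun s => psi_nonneg hδ _
  have k : ∀ s t, s = r ∨ t = r → |rate c δ μ s t| ≤ |c s t| * psi δ (μ r) := fun s t h => by
    unfold rate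
    split_ifs
    · rw [abs_mul, abs_of_nonneg (mul_nonneg (p0 s) (p0 t))]
      refine mul_le_mul_of_nonneg_left ?_ (abs_nonneg _)
      rcases h with rfl | rfl
      · exact mul_le_of_le_one_right (p0 _) (p1 _)
      · exact mul_le_of_le_one_left (p0 _) (p1 _)
    · simpa using mul_nonneg (abs_nonneg (c s t)) (p0 r)
  have a1 : |∑ s, rate c δ μ s r| ≤ (∑ s, ∑ t, |c s t|) * psi δ (μ r) := by
    rw [Finset.sum_mul]
    refine (Finset.abs_sum_le_sum_abs _ _).trans (Finset.sum_le_sum fun s _ => ?_)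
    exact (k s r (Or.inr rfl)).trans (mul_le_mul_of_nonneg_right
      (Finset.single_le_sum (f := fun t => |c s t|) (fun _ _ => abs_nonneg _) (Finset.mem_univ r)) (p0 r))
  have a2 : |∑ t, rate c δ μ r t| ≤ (∑ s, ∑ t, |c s t|) * psi δ (μ r) := by
    refine ((Finset.abs_sum_le_sum_abs _ _).trans (Finset.sum_le_sum fun t _ => k r t (Or.inl rfl))).trans ?_
    rw [← Finset.sum_mul]
    exact mul_le_mul_of_nonneg_right (Finset.single_le_sum (f := fun s => ∑ t, |c s t|)
      (fun _ _ => Finset.sum_nonneg fun _ _ => abs_nonneg _) (Finset.mem_univ r)) (p0 r)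
  rw [upV_apply]
  have := abs_sub (∑ s, rate c δ μ s r) (∑ t, rate c δ μ r t)
  linarith

end up

/-- a solution of `|f'| ≤ C ψ(f)` does not cross the level `2 δ` -/
theorem big_iff {δ C : ℝ} (hδ : 0 < δ) {f f' : ℝ → ℝ} {a b : ℝ}
    (hf : ∀ t ∈ uIcc a b, HasDerivAt f (f' t) t) (h0 : ∀ t ∈ uIcc a b, f t ∈ Icc (0 : ℝ) 1)
    (hb : ∀ t ∈ uIcc a b, |f' t| ≤ C * psi δ (f t)) : 2 * δ < f a ↔ 2 * δ < f b := by
  obtain ⟨D, hD⟩ := isCompact_Icc.exists_bound_of_continuousOn
    (((contDiff_psi δ).continuous_deriv (by simp)).continuousOn (s := Icc (0 : ℝ) 1))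
  have key : ∀ (g g' : ℝ → ℝ) (a b : ℝ), a ≤ b → (∀ t ∈ Icc a b, HasDerivAt g (g' t) t) →
      (∀ t ∈ Icc a b, g t ∈ Icc (0 : ℝ) 1) → (∀ t ∈ Icc a b, |g' t| ≤ C * psi δ (g t)) →
      2 * δ < g b → 2 * δ < g a := by
    intro g g' a b hab hg h0 hb h
    by_contra hn
    have d : ∀ t ∈ Icc a b, HasDerivAt (fun t => psi δ (g t)) (deriv (psi δ) (g t) * g' t) t :=
      fun t ht => (((contDiff_psi δ).differentiable (by simp) _).hasDerivAt).comp t (hg t ht)
    have := eq_zero_of_abs_deriv_le_mul_abs_self_of_eq_zero_right (K := D * |C|)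
      (f := fun t => psi δ (g t)) (f' := fun t => deriv (psi δ) (g t) * g' t)
      (fun t ht => (d t ht).continuousAt.continuousWithinAt)
      (fun t ht => (d t (Ico_subset_Icc_self ht)).hasDerivWithinAt) (psi_zero hδ (not_lt.1 hn))
      (fun t ht => by
        have ht' := Ico_subset_Icc_self ht
        have k1 := hD _ (h0 t ht')
        have k2 := (hb t ht').trans (mul_le_mul_of_nonneg_right (le_abs_self C) (psi_nonneg hδ _))
        rw [norm_mul, Real.norm_of_nonneg (psi_nonneg hδ _), mul_assoc]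
        exact mul_le_mul k1 k2 (abs_nonneg _) ((norm_nonneg _).trans k1)) b (right_mem_Icc.2 hab)
    exact (psi_pos hδ h).ne' this
  have rev : ∀ a b : ℝ, a ≤ b → (∀ t ∈ Icc a b, HasDerivAt f (f' t) t) →
      (∀ t ∈ Icc a b, f t ∈ Icc (0 : ℝ) 1) → (∀ t ∈ Icc a b, |f' t| ≤ C * psi δ (f t)) →
      (2 * δ < f a ↔ 2 * δ < f b) := by
    intro a b hab hf h0 hb
    refine ⟨fun h => ?_, key f f' a b hab hf h0 hb⟩
    have m : ∀ t ∈ Icc (-b) (-a), -t ∈ Icc a b := fun t ht => ⟨by linarith [ht.2], by linarith [ht.1]⟩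
    have := key (fun t => f (-t)) (fun t => -f' (-t)) (-b) (-a) (by linarith)
      (fun t ht => by
        have := (hf _ (m t ht)).comp t (hasDerivAt_neg t)
        rw [mul_neg_one] at this
        exact this) (fun t ht => h0 _ (m t ht))
      (fun t ht => by rw [abs_neg]; exact hb _ (m t ht)) (by simpa using h)
    simpa using this
  rcases le_total a b with h | h
  · rw [uIcc_of_le h] at hf h0 hb
    exact rev a b h hf h0 hb
  · rw [uIcc_of_ge h] at hf h0 hb
    exact (rev b a h hf h0 hb).symm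

namespace Mol

variable {E : Type} [NormedAddCommGroup E] [NormedSpace ℝ E]
  {P : Type} [PartialOrder P] [Fintype P] [DecidableEq P]
  {B : Bary E P} {W : Set E} {δ : ℝ} (M : Mol B W δ)

theorem le_one (y : E) (s : P) : M.Λ y s ≤ 1 :=
  (Finset.single_le_sum (fun t _ => M.nonneg y t) (Finset.mem_univ s)).trans (M.sum_le y)

theorem big {y : E} (hy : y ∈ W) {s : P} (h : 2 * δ < M.Λ y s) : δ < B.lam y s := by
  have := (abs_lt.1 (M.close y hy s)).2
  linarith

/-- tangent vectors supported on the big vertices lift exactly -/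
theorem der' {y : E} (hy : y ∈ W) {w : P → ℝ} (h0 : ∑ s, w s = 0)
    (hw : ∀ s, w s ≠ 0 → 2 * δ < M.Λ y s) : fderiv ℝ M.Λ y (pt B.x w) = w :=
  M.der y hy w ⟨h0, fun s hs => (M.big hy (hw s hs)).le⟩

/-- the upward field -/
def fld (c : P → P → ℝ) (y : E) : E := pt B.x (upV c δ (M.Λ y))

theorem contDiff_fld (c : P → P → ℝ) : ContDiff ℝ ∞ (M.fld c) :=
  (ptL B.x).contDiff.comp ((contDiff_upV c δ).comp M.smooth)

theorem exists_bound_fld (c : P → P → ℝ) : ∃ C, ∀ y, ‖M.fld c y‖ ≤ C := by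
  obtain ⟨C, hC⟩ := (isCompact_Icc (a := (0 : P → ℝ)) (b := 1)).exists_bound_of_continuousOn
    ((ptL B.x).continuous.comp (contDiff_upV c δ).continuous).continuousOn
  exact ⟨C, fun y => hC _ ⟨fun s => M.nonneg y s, fun s => M.le_one y s⟩⟩

theorem fderiv_fld (hδ : 0 < δ) (c : P → P → ℝ) {y : E} (hy : y ∈ W) :
    fderiv ℝ M.Λ y (M.fld c y) = upV c δ (M.Λ y) :=
  M.der' hy (sum_upV c δ _) fun _ hs => upV_ne hδ hs

theorem hasDerivAt_curve (hδ : 0 < δ) (c : P → P → ℝ) {γ : ℝ → E} {t : ℝ} (hy : γ t ∈ W)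
    (h : HasDerivAt γ (M.fld c (γ t)) t) :
    HasDerivAt (fun t => M.Λ (γ t)) (upV c δ (M.Λ (γ t))) t :=
  M.fderiv_fld hδ c hy ▸ (M.smooth.differentiable (by simp) _).hasFDerivAt.comp_hasDerivAt t h

/-- big vertices lie in one face with every vertex of the support -/
theorem exists_face {y : E} (hy : y ∈ W) {s : P} (hs : M.Λ y s ≠ 0) :
    ∃ σ ∈ B.faces, s ∈ σ ∧ ∀ t, 2 * δ < M.Λ y t → t ∈ σ :=
  let ⟨σ, h1, h2, h3⟩ := M.supp y hy s hs
  ⟨σ, h1, h2, fun t ht => h3 t (M.big hy ht).le⟩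

end Mol

end Crest.Agent.X212.Mol27
end
end

-- ▼ part X212/Mol27/Lc

/-!
# X212 / Mol27 (helper27): lifted coordinates

* `wS S μ` : total weight of a set of vertices;
* `LC E A δ` : PL coordinates `lam` and smooth coordinates `mu` of the manifold `A` on an open set;
* `L.Fld v` : `v` moves weight upwards;  `L.seg` : straight moves;  `LC.base`.
-/

set_option autoImplicit false
set_option linter.unusedSectionVars false

open Set Filter Topology Function Metric Classical
open scoped ContDiff NNReal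
open Crest.Agent.X212.Sm10 Crest.Agent.X212.Hp13 Crest.Agent.X212.Alg36

noncomputable section

namespace Crest.Agent.X212.Mol27

section weights

variable {P : Type} [Fintype P] {S T : Set P} {μ ν : P → ℝ} {c : ℝ}

/-- indicator -/
def io (S : Set P) (q : P) : ℝ := if q ∈ S then 1 else 0

theorem io_mem {q : P} (h : q ∈ S) : io S q = 1 := if_pos h
theorem io_not {q : P} (h : q ∉ S) : io S q = 0 := if_neg h
theorem io_nonneg (S : Set P) (q : P) : 0 ≤ io S q := by unfold io; split_ifs <;> norm_num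
theorem io_le (S : Set P) (q : P) : io S q ≤ 1 := by unfold io; split_ifs <;> norm_num

/-- the weight of `S` -/
def wS (S : Set P) (μ : P → ℝ) : ℝ := ∑ q, io S q * μ q

theorem wS_add (S : Set P) (μ ν : P → ℝ) : wS S (μ + ν) = wS S μ + wS S ν := by
  simp [wS, mul_add, Finset.sum_add_distrib]

theorem wS_smul (S : Set P) (r : ℝ) (μ : P → ℝ) : wS S (r • μ) = r * wS S μ := by
  simp only [wS, Finset.mul_sum, Pi.smul_apply, smul_eq_mul]
  exact Finset.sum_congr rfl fun _ _ => by ring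

/-- the weight as a continuous linear map -/
def wL (S : Set P) : (P → ℝ) →L[ℝ] ℝ :=
  LinearMap.toContinuousLinearMap { toFun := wS S, map_add' := wS_add S, map_smul' := wS_smul S }

@[simp] theorem wL_apply (S : Set P) (μ : P → ℝ) : wL S μ = wS S μ := rfl

theorem wS_sub (S : Set P) (μ ν : P → ℝ) : wS S (μ - ν) = wS S μ - wS S ν := (wL S).map_sub μ ν

@[simp] theorem wS_e (S : Set P) (s : P) : wS S (e s) = io S s := by simp [wS, e_apply]

theorem wS_nonneg (h : ∀ q, 0 ≤ μ q) (S : Set P) : 0 ≤ wS S μ :=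
  Finset.sum_nonneg fun q _ => mul_nonneg (io_nonneg S q) (h q)

theorem wS_mono (h : ∀ q, 0 ≤ μ q) (hs : ∀ q, μ q ≠ 0 → q ∈ S → q ∈ T) : wS S μ ≤ wS T μ :=
  Finset.sum_le_sum fun q _ => by
    by_cases h0 : μ q = 0
    · simp [h0]
    by_cases h1 : q ∈ S
    · rw [io_mem h1, io_mem (hs q h0 h1)]
    · rw [io_not h1, zero_mul]; exact mul_nonneg (io_nonneg _ _) (h q)

theorem wS_congr (hs : ∀ q, μ q ≠ 0 → (q ∈ S ↔ q ∈ T)) : wS S μ = wS T μ :=
  Finset.sum_congr rfl fun q _ => by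
    by_cases h0 : μ q = 0
    · simp [h0]
    · simp only [io, hs q h0]

theorem wS_le_wS (h : ∀ q ∈ S, μ q ≤ ν q) : wS S μ ≤ wS S ν :=
  Finset.sum_le_sum fun q _ => by
    by_cases h1 : q ∈ S
    · rw [io_mem h1, one_mul, one_mul]; exact h q h1
    · simp [io_not h1]

theorem wS_compl (S : Set P) (μ : P → ℝ) : wS Sᶜ μ = ∑ q, μ q - wS S μ := by
  rw [wS, wS, ← Finset.sum_sub_distrib]
  exact Finset.sum_congr rfl fun q _ => by by_cases h : q ∈ S <;> simp [io, h]

theorem wS_le_sum (h : ∀ q, 0 ≤ μ q) (S : Set P) : wS S μ ≤ ∑ q, μ q := by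
  linarith [wS_compl S μ, wS_nonneg h Sᶜ]

theorem wS_union_inter (S T : Set P) (μ : P → ℝ) :
    wS (S ∪ T) μ + wS (S ∩ T) μ = wS S μ + wS T μ := by
  simp only [wS, ← Finset.sum_add_distrib]
  exact Finset.sum_congr rfl fun q _ => by
    by_cases h : q ∈ S <;> by_cases h' : q ∈ T <;> simp [io, h, h']

theorem wS_zero (h : ∀ q ∈ S, μ q = 0) : wS S μ = 0 :=
  Finset.sum_eq_zero fun q _ => by by_cases h1 : q ∈ S <;> simp [io, h1, h]

theorem wS_union_le (h : ∀ q, 0 ≤ μ q) (S T : Set P) : wS (S ∪ T) μ ≤ wS S μ + wS T μ := by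
  linarith [wS_union_inter S T μ, wS_nonneg h (S ∩ T)]

theorem wS_union (h : ∀ q ∈ S, q ∈ T → μ q = 0) : wS (S ∪ T) μ = wS S μ + wS T μ := by
  linarith [wS_union_inter S T μ, wS_zero (S := S ∩ T) (μ := μ) fun q hq => h q hq.1 hq.2]

theorem le_wS (h : ∀ q, 0 ≤ μ q) {q : P} (hq : q ∈ S) : μ q ≤ wS S μ := by
  have := Finset.single_le_sum (f := fun q => io S q * μ q)
    (fun q _ => mul_nonneg (io_nonneg S q) (h q)) (Finset.mem_univ q)
  rwa [io_mem hq, one_mul] at this

theorem wS_le_card (hc : 0 ≤ c) (h : ∀ q ∈ S, μ q ≤ c) : wS S μ ≤ Fintype.card P * c := by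
  rw [← Finset.card_univ, ← nsmul_eq_mul, ← Finset.sum_const]
  refine Finset.sum_le_sum fun q _ => ?_
  by_cases h1 : q ∈ S
  · rw [io_mem h1, one_mul]; exact h q h1
  · simpa [io_not h1] using hc

theorem exists_gt (hc : 0 ≤ c) (h : Fintype.card P * c < wS S μ) : ∃ q ∈ S, c < μ q := by
  by_contra! hn
  exact h.not_ge (wS_le_card hc hn)

theorem wS_le_add (h : ∀ q, |μ q - ν q| < c) (hc : 0 ≤ c) (S : Set P) :
    wS S μ ≤ wS S ν + Fintype.card P * c := by
  have := wS_le_card (S := S) (μ := μ - ν) hc fun q _ => (abs_lt.1 (h q)).2.le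
  rw [wS_sub] at this
  linarith

/-- gathering weight `c` at `b` -/
def gw (b : P) (c : P → ℝ) : P → ℝ := (∑ q, c q) • e b - c

theorem sum_gw (b : P) (c : P → ℝ) : ∑ q, gw b c q = 0 := by
  simp [gw, Finset.sum_sub_distrib, ← Finset.mul_sum]

theorem wS_gw (S : Set P) (b : P) (c : P → ℝ) : wS S (gw b c) = (∑ q, c q) * io S b - wS S c := by
  rw [gw, wS_sub, wS_smul, wS_e]

theorem gw_ne {b q : P} (c : P → ℝ) (h : q ≠ b) : gw b c q = -c q := by simp [gw, e_apply, h]

theorem gw_self (b : P) (c : P → ℝ) : gw b c b = ∑ q, c q - c b := by simp [gw, e_apply]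

theorem pt_gw {E : Type} [NormedAddCommGroup E] [NormedSpace ℝ E] (X : P → E) (b : P) (c : P → ℝ) :
    pt X (gw b c) = ∑ q, c q • (X b - X q) := by
  rw [gw, pt_sub, pt_smul, pt_e, pt, Finset.sum_smul, ← Finset.sum_sub_distrib]
  simp only [smul_sub]

end weights

variable {E : Type} [NormedAddCommGroup E] [NormedSpace ℝ E]
  {P : Type} [PartialOrder P] [Fintype P]

theorem _root_.Crest.Agent.X212.Sm10.IsWt.cm {l : P → ℝ} (h : IsWt l) {s t : P} (hs : l s ≠ 0)
    (ht : l t ≠ 0) : Cm s t :=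
  h.chain.total (show s ∈ support l from hs) (show t ∈ support l from ht)

theorem isWt_of {l : P → ℝ} (h0 : ∀ s, 0 ≤ l s) (h1 : ∑ s, l s = 1)
    (h2 : ∀ s t, l s ≠ 0 → l t ≠ 0 → Cm s t) : IsWt l := ⟨⟨h0, fun s hs t ht _ => h2 s t hs ht⟩, h1⟩

variable (E) in
/-- lifted coordinates -/
structure LC (A : Set P) (δ : ℝ) where
  U : Set E
  X : P → E
  lam : E → P → ℝ
  mu : E → P → ℝ
  δ0 : 0 < δ
  small : Fintype.card P * δ ≤ 1 / 100
  conv : A.OrdConnected
  isOpen : IsOpen U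
  cont : ContinuousOn lam U
  smooth : ContDiffOn ℝ ∞ mu U
  wt : ∀ y ∈ U, IsWt (lam y)
  pos : ∀ y ∈ U, pt X (lam y) = y
  real : ∀ ν, IsWt ν → wS Aᶜ ν ≤ 1 / 6 → pt X ν ∈ U ∧ lam (pt X ν) = ν
  nonneg : ∀ y ∈ U, ∀ q, 0 ≤ mu y q
  sum_one : ∀ y ∈ U, ∑ q, mu y q = 1
  close : ∀ y ∈ U, ∀ q, |mu y q - lam y q| < δ
  supp : ∀ y ∈ U, ∀ q t, mu y q ≠ 0 → δ ≤ lam y t → Cm q t
  der : ∀ y ∈ U, ∀ w, Tg δ (lam y) w → fderiv ℝ mu y (pt X w) = w
  hv : ∀ y ∈ U, wS Aᶜ (mu y) < 1 / 4

theorem Op_dual (A : Set P) : Op (P := Pᵒᵈ) A = Om A := rfl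
theorem Om_dual (A : Set P) : Om (P := Pᵒᵈ) A = Op A := rfl

namespace LC

variable {A : Set P} {δ : ℝ} (L : LC E A δ)

/-- the same coordinates for the opposite order -/
def dual : LC E (P := Pᵒᵈ) A δ where
  U := L.U
  X := L.X
  lam := L.lam
  mu := L.mu
  δ0 := L.δ0
  small := L.small
  conv := L.conv.dual
  isOpen := L.isOpen
  cont := L.cont
  smooth := L.smooth
  wt y hy := isWt_of (L.wt y hy).nonneg (L.wt y hy).sum fun _ _ hs ht => ((L.wt y hy).cm hs ht).symm
  pos := L.pos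
  real ν hν := L.real ν (isWt_of hν.nonneg hν.sum fun _ _ hs ht => (hν.cm hs ht).symm)
  nonneg := L.nonneg
  sum_one := L.sum_one
  close := L.close
  supp y hy q t h1 h2 := (L.supp y hy q t h1 h2).symm
  der := L.der
  hv := L.hv

/-- the smooth weight of a set of vertices -/
def w (S : Set P) (y : E) : ℝ := wS S (L.mu y)

/-- the weight of `O₊` -/
def p : E → ℝ := L.w (Op A)

/-- the weight of `O₋` -/
def m : E → ℝ := L.w (Om A)

theorem dual_p : L.dual.p = L.m := rfl
theorem dual_m : L.dual.m = L.p := rfl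

/-- `q` is a big vertex at `y` -/
def Big (y : E) (q : P) : Prop := 2 * δ < L.mu y q

/-- `v` moves weight upwards between big vertices -/
def Fld (v : E → E) : Prop := ∀ y ∈ L.U, ∃ c : P → P → ℝ, (∀ s t, 0 ≤ c s t) ∧
  (∀ s t, c s t ≠ 0 → s < t ∧ L.Big y s ∧ L.Big y t) ∧
  (∀ s t, s < t → L.Big y s → L.Big y t → 0 < c s t) ∧ v y = ∑ s, ∑ t, c s t • (L.X t - L.X s)

variable {L} {y : E} {q s t b : P} {S : Set P}

theorem lam_lt (hy : y ∈ L.U) (q : P) : L.lam y q < L.mu y q + δ := by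
  linarith [(abs_lt.1 (L.close y hy q)).1]

theorem mu_lt (hy : y ∈ L.U) (q : P) : L.mu y q < L.lam y q + δ := by
  linarith [(abs_lt.1 (L.close y hy q)).2]

theorem Big.le (h : L.Big y q) (hy : y ∈ L.U) : δ ≤ L.lam y q := by
  linarith [mu_lt hy q, show 2 * δ < L.mu y q from h]

theorem ne_of_le (h : δ ≤ L.lam y q) : L.lam y q ≠ 0 := (L.δ0.trans_le h).ne'

theorem cm_of_le (hy : y ∈ L.U) (hs : δ ≤ L.lam y s) (ht : δ ≤ L.lam y t) : Cm s t :=
  (L.wt y hy).cm (ne_of_le hs) (ne_of_le ht)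

theorem w_le (hy : y ∈ L.U) (S : Set P) : L.w S y ≤ wS S (L.lam y) + Fintype.card P * δ :=
  wS_le_add (L.close y hy) L.δ0.le S

theorem le_w (hy : y ∈ L.U) (S : Set P) : wS S (L.lam y) ≤ L.w S y + Fintype.card P * δ :=
  wS_le_add (fun q => by rw [abs_sub_comm]; exact L.close y hy q) L.δ0.le S

theorem w_nonneg (hy : y ∈ L.U) (S : Set P) : 0 ≤ L.w S y := wS_nonneg (L.nonneg y hy) S

theorem w_compl (hy : y ∈ L.U) (S : Set P) : L.w Sᶜ y = 1 - L.w S y := by
  rw [w, wS_compl, L.sum_one y hy, w]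

theorem w_le_one (hy : y ∈ L.U) (S : Set P) : L.w S y ≤ 1 := by
  linarith [w_compl hy S, w_nonneg hy Sᶜ]

theorem exists_big (h : 2 * (Fintype.card P * δ) < L.w S y) : ∃ q ∈ S, L.Big y q :=
  exists_gt (c := 2 * δ) (by linarith [L.δ0]) (by rw [w] at h; linarith)

theorem exists_bigA (hy : y ∈ L.U) : ∃ b ∈ A, L.Big y b := by
  refine exists_big ?_
  have h1 : L.w Aᶜ y < 1 / 4 := L.hv y hy
  linarith [w_compl hy A, L.small]

theorem contDiffOn_w (L : LC E A δ) (S : Set P) : ContDiffOn ℝ ∞ (L.w S) L.U :=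
  (wL S).contDiff.comp_contDiffOn L.smooth

theorem diff (hy : y ∈ L.U) {F : Type} [NormedAddCommGroup F] [NormedSpace ℝ F] {f : E → F}
    (hf : ContDiffOn ℝ ∞ f L.U) : DifferentiableAt ℝ f y :=
  (hf.contDiffAt (L.isOpen.mem_nhds hy)).differentiableAt (by simp)

theorem fderiv_w (hy : y ∈ L.U) (hs : δ ≤ L.lam y s) (ht : δ ≤ L.lam y t) (S : Set P) :
    fderiv ℝ (L.w S) y (L.X t - L.X s) = io S t - io S s := by
  have h1 := ((wL S).hasFDerivAt.comp y (diff hy L.smooth).hasFDerivAt).fderiv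
  have h2 := L.der y hy (e t - e s) ⟨by simp, fun r hr => by
    by_cases a : r = t
    · exact a ▸ ht
    by_cases b : r = s
    · exact b ▸ hs
    simp [e_apply, a, b] at hr⟩
  rw [pt_sub, pt_e, pt_e] at h2
  rw [show fderiv ℝ (L.w S) y = _ from h1, ContinuousLinearMap.comp_apply, h2, wL_apply, wS_sub,
    wS_e, wS_e]

/-- a vertex of the support off `A` is in `O₊` or in `O₋` -/
theorem w_not (hy : y ∈ L.U) : L.w Aᶜ y = L.p y + L.m y := by
  obtain ⟨b, hb, hB⟩ := exists_bigA hy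
  rw [p, m, w, w, w, ← wS_union fun q h1 h2 => ?_]
  · refine wS_congr fun q hq => ⟨fun h => ?_, fun h => h.elim (·.1) (·.1)⟩
    exact (L.supp y hy q b hq (hB.le hy)).elim (fun k => .inr ⟨h, b, hb, k⟩) fun k => .inl ⟨h, b, hb, k⟩
  · obtain ⟨h, a, ha, h3⟩ := h1
    obtain ⟨-, a', ha', h4⟩ := h2
    exact absurd (L.conv.out ha ha' ⟨h3, h4⟩) h

theorem isCompact_K (L : LC E A δ) {c : ℝ} (hc : c ≤ 1 / 14) :
    IsCompact {y | y ∈ L.U ∧ L.p y ≤ c ∧ L.m y ≤ c} := by
  have hK : IsCompact (pt L.X '' (Wt P ∩ {ν | wS Aᶜ ν ≤ 1 / 6})) :=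
    (isCompact_Wt.inter_right (isClosed_le (wL Aᶜ).continuous continuous_const)).image
      (ptL L.X).continuous
  have hU : pt L.X '' (Wt P ∩ {ν | wS Aᶜ ν ≤ 1 / 6}) ⊆ L.U := by
    rintro _ ⟨ν, h, rfl⟩
    exact (L.real ν h.1 h.2).1
  have := ((((L.contDiffOn_w (Op A)).continuousOn.prodMk
    (L.contDiffOn_w (Om A)).continuousOn).mono hU).preimage_isClosed_of_isClosed hK.isClosed
    ((isClosed_Iic (a := c)).prod (isClosed_Iic (a := c))))
  refine hK.of_isClosed_subset ?_ ?_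
  · convert this using 1
    refine Subset.antisymm (fun y h => ⟨⟨_, ⟨L.wt y h.1, ?_⟩, L.pos y h.1⟩, h.2⟩) fun y h => ⟨hU h.1, h.2⟩
    show wS Aᶜ (L.lam y) ≤ _
    linarith [le_w h.1 Aᶜ, w_not h.1, h.2.1, h.2.2, L.small]
  · intro y h
    refine ⟨_, ⟨L.wt y h.1, ?_⟩, L.pos y h.1⟩
    show wS Aᶜ (L.lam y) ≤ _
    linarith [le_w h.1 Aᶜ, w_not h.1, h.2.1, h.2.2, L.small]

theorem Fld.nonneg {v : E → E} (h : L.Fld v) (hy : y ∈ L.U) {l : E →L[ℝ] ℝ}
    (hl : ∀ s t, s < t → L.Big y s → L.Big y t → 0 ≤ l (L.X t - L.X s)) : 0 ≤ l (v y) := by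
  obtain ⟨c, h0, h1, -, h3⟩ := h y hy
  simp only [h3, map_sum, map_smul, smul_eq_mul]
  refine Finset.sum_nonneg fun s _ => Finset.sum_nonneg fun t _ => ?_
  by_cases k : c s t = 0
  · simp [k]
  · exact mul_nonneg (h0 s t) (hl s t (h1 s t k).1 (h1 s t k).2.1 (h1 s t k).2.2)

theorem Fld.pos {v : E → E} (h : L.Fld v) (hy : y ∈ L.U) {l : E →L[ℝ] ℝ}
    (hl : ∀ s t, s < t → L.Big y s → L.Big y t → 0 ≤ l (L.X t - L.X s)) (hst : s < t)
    (hs : L.Big y s) (ht : L.Big y t) (hp : 0 < l (L.X t - L.X s)) : 0 < l (v y) := by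
  obtain ⟨c, h0, h1, h2, h3⟩ := h y hy
  simp only [h3, map_sum, map_smul, smul_eq_mul]
  have nn : ∀ s t, 0 ≤ c s t * l (L.X t - L.X s) := fun s t => by
    by_cases k : c s t = 0
    · simp [k]
    · exact mul_nonneg (h0 s t) (hl s t (h1 s t k).1 (h1 s t k).2.1 (h1 s t k).2.2)
  exact Finset.sum_pos' (fun s _ => Finset.sum_nonneg fun t _ => nn s t) ⟨s, Finset.mem_univ _,
    Finset.sum_pos' (fun t _ => nn s t) ⟨t, Finset.mem_univ _, mul_pos (h2 s t hst hs ht) hp⟩⟩

theorem Fld.dual {v : E → E} (h : L.Fld v) : L.dual.Fld (-v) := fun y hy => by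
  obtain ⟨c, h0, h1, h2, h3⟩ := h y hy
  refine ⟨fun s t => c t s, fun s t => h0 t s, fun s t k => ⟨(h1 _ _ k).1, (h1 _ _ k).2.2, (h1 _ _ k).2.1⟩,
    fun s t k a b => h2 _ _ k b a, ?_⟩
  rw [Pi.neg_apply, h3, Finset.sum_comm, ← Finset.sum_neg_distrib]
  refine Finset.sum_congr rfl fun s _ => ?_
  rw [← Finset.sum_neg_distrib]
  exact Finset.sum_congr rfl fun t _ => by rw [← smul_neg, neg_sub]; rfl

/-- the weight of a set which is upper on the big vertices increases -/
theorem Fld.w_nonneg {v : E → E} (h : L.Fld v) (hy : y ∈ L.U)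
    (hS : ∀ s t, s < t → L.Big y s → L.Big y t → s ∈ S → t ∈ S) : 0 ≤ fderiv ℝ (L.w S) y (v y) :=
  h.nonneg hy fun s t a b c => by
    rw [fderiv_w hy (b.le hy) (c.le hy), sub_nonneg]
    by_cases k : s ∈ S
    · rw [io_mem k, io_mem (hS s t a b c k)]
    · rw [io_not k]; exact io_nonneg _ _

theorem Fld.w_pos {v : E → E} (h : L.Fld v) (hy : y ∈ L.U)
    (hS : ∀ s t, s < t → L.Big y s → L.Big y t → s ∈ S → t ∈ S)
    (h1 : 2 * (Fintype.card P * δ) < L.w S y) (h2 : L.w S y < 1 - 2 * (Fintype.card P * δ)) :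
    0 < fderiv ℝ (L.w S) y (v y) := by
  obtain ⟨t, ht, bt⟩ := exists_big h1
  obtain ⟨s, hs, bs⟩ := exists_big (L := L) (S := Sᶜ) (y := y) (by linarith [w_compl hy S])
  have hst : s < t := by
    rcases cm_of_le hy (bs.le hy) (bt.le hy) with k | k
    · exact k.lt_of_ne fun e => hs (e ▸ ht)
    · exact absurd (hS t s (k.lt_of_ne fun e => hs (e ▸ ht)) bt bs ht) hs
  refine h.pos hy (fun s t a b c => ?_) hst bs bt ?_
  · rw [fderiv_w hy (b.le hy) (c.le hy), sub_nonneg]
    by_cases k : s ∈ S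
    · rw [io_mem k, io_mem (hS s t a b c k)]
    · rw [io_not k]; exact io_nonneg _ _
  · rw [fderiv_w hy (bs.le hy) (bt.le hy), io_mem ht, io_not hs]; norm_num

/-! ### straight moves -/

/-- PL segments between weights on a common chain -/
theorem real_seg (L : LC E A δ) {ν ν' : P → ℝ} (h : IsWt ν) (h' : IsWt ν')
    (hc : ∀ s t, ν s ≠ 0 → ν' t ≠ 0 → Cm s t) (k : wS Aᶜ ν ≤ 1 / 6) (k' : wS Aᶜ ν' ≤ 1 / 6) {τ : ℝ}
    (hτ : τ ∈ Icc (0 : ℝ) 1) : pt L.X ν + τ • pt L.X (ν' - ν) ∈ L.U ∧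
      L.lam (pt L.X ν + τ • pt L.X (ν' - ν)) = ν + τ • (ν' - ν) := by
  rw [← pt_smul, ← pt_add]
  have e1 : ∀ s, (ν + τ • (ν' - ν)) s = (1 - τ) * ν s + τ * ν' s := fun s => by simp; ring
  refine L.real _ (isWt_of (fun s => ?_) ?_ fun s t hs ht => ?_) ?_
  · rw [e1]; exact add_nonneg (mul_nonneg (sub_nonneg.2 hτ.2) (h.nonneg s)) (mul_nonneg hτ.1 (h'.nonneg s))
  · simp only [e1, Finset.sum_add_distrib, ← Finset.mul_sum, h.sum, h'.sum]; ring
  · have a : ∀ s, (ν + τ • (ν' - ν)) s ≠ 0 → ν s ≠ 0 ∨ ν' s ≠ 0 := fun s hs => by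
      by_contra! n
      exact hs (by rw [e1, n.1, n.2]; simp)
    rcases a s hs with a1 | a1 <;> rcases a t ht with b | b
    exacts [h.cm a1 b, hc s t a1 b, (hc t s b a1).symm, h'.cm a1 b]
  · rw [wS_add, wS_smul, wS_sub]
    nlinarith [hτ.1, hτ.2]

/-- gathering at a vertex is a straight move which the smooth coordinates follow exactly -/
theorem seg (hy : y ∈ L.U) {c : P → ℝ} (hb : δ ≤ L.lam y b) (h0 : ∀ q, 0 ≤ c q)
    (hc : ∀ q, c q ≠ 0 → δ + c q ≤ L.lam y q) (k : wS Aᶜ (L.lam y) ≤ 1 / 6)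
    (k' : wS Aᶜ (L.lam y + gw b c) ≤ 1 / 6) :
    (∀ τ ∈ Icc (0 : ℝ) 1, y + τ • pt L.X (gw b c) ∈ L.U ∧
      L.lam (y + τ • pt L.X (gw b c)) = L.lam y + τ • gw b c ∧
      L.mu (y + τ • pt L.X (gw b c)) = L.mu y + τ • gw b c) ∧
    ∀ f : E → ℝ, ContDiffOn ℝ ∞ f L.U → (∀ x ∈ L.U, ∀ q, c q ≠ 0 → δ ≤ L.lam x q → δ ≤ L.lam x b →
      0 ≤ fderiv ℝ f x (L.X b - L.X q)) → ∀ τ ∈ Icc (0 : ℝ) 1, f y ≤ f (y + τ • pt L.X (gw b c)) := by
  have s0 : ∀ q, c q ≤ ∑ q, c q := fun q =>
    Finset.single_le_sum (fun q _ => h0 q) (Finset.mem_univ q)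
  have g1 : ∀ q, -c q ≤ gw b c q := fun q => by
    by_cases a : q = b
    · rw [a, gw_self]; linarith [s0 b, h0 b]
    · rw [gw_ne c a]
  have g2 : ∀ τ ∈ Icc (0 : ℝ) 1, ∀ q, q = b ∨ c q ≠ 0 → δ ≤ (L.lam y + τ • gw b c) q := by
    rintro τ hτ q (rfl | a)
    · simp only [Pi.add_apply, Pi.smul_apply, smul_eq_mul, gw_self]
      nlinarith [hτ.1, s0 q]
    · simp only [Pi.add_apply, Pi.smul_apply, smul_eq_mul]
      nlinarith [hτ.1, hτ.2, g1 q, hc q a, h0 q]
  have g3 : ∀ q, gw b c q ≠ 0 → q = b ∨ c q ≠ 0 := fun q h => by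
    by_contra! n
    exact h (by rw [gw_ne c n.1, n.2, neg_zero])
  have g4 : ∀ q, (L.lam y + gw b c) q ≠ 0 → L.lam y q ≠ 0 := fun q h => by
    by_cases a : gw b c q = 0
    · simpa [a] using h
    · simpa using ne_of_le (L := L) (by simpa using g2 0 (left_mem_Icc.2 zero_le_one) q (g3 q a))
  have hW : IsWt (L.lam y + gw b c) := isWt_of (fun q => by
      by_cases a : gw b c q = 0
      · simpa [a] using (L.wt y hy).nonneg q
      · simpa using L.δ0.le.trans (g2 1 (right_mem_Icc.2 zero_le_one) q (g3 q a)))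
    (by simp [Finset.sum_add_distrib, sum_gw, (L.wt y hy).sum])
    fun s t hs ht => (L.wt y hy).cm (g4 s hs) (g4 t ht)
  have r := fun τ hτ => L.real_seg (L.wt y hy) hW (fun s t hs ht => (L.wt y hy).cm hs (g4 t ht)) k k'
    (τ := τ) hτ
  simp only [add_sub_cancel_left, L.pos y hy] at r
  have hd : ∀ τ : ℝ, HasDerivAt (fun τ : ℝ => y + τ • pt L.X (gw b c)) (pt L.X (gw b c)) τ := fun τ => by
    simpa using ((hasDerivAt_id τ).smul_const (pt L.X (gw b c))).const_add y
  refine ⟨fun τ hτ => ⟨(r τ hτ).1, (r τ hτ).2, ?_⟩, fun f hf h τ hτ => ?_⟩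
  · have d : ∀ τ ∈ Icc (0 : ℝ) 1,
        HasDerivAt (fun τ : ℝ => L.mu (y + τ • pt L.X (gw b c)) - τ • gw b c) 0 τ := fun τ hτ => by
      have := ((diff (r τ hτ).1 L.smooth).hasFDerivAt.comp_hasDerivAt τ (hd τ)).sub
        ((hasDerivAt_id τ).smul_const (gw b c))
      rw [L.der _ (r τ hτ).1 _ ⟨sum_gw b c, fun q hq => by
        rw [(r τ hτ).2]; exact g2 τ hτ q (g3 q hq)⟩, one_smul, sub_self] at this
      exact this
    have := constant_of_has_deriv_right_zero (fun τ hτ => (d τ hτ).continuousAt.continuousWithinAt)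
      (fun τ hτ => (d τ (Ico_subset_Icc_self hτ)).hasDerivWithinAt) τ hτ
    simp only [zero_smul, add_zero, sub_zero] at this
    rw [← this, sub_add_cancel]
  · have d : ∀ τ ∈ Icc (0 : ℝ) 1, HasDerivAt (fun τ : ℝ => f (y + τ • pt L.X (gw b c)))
        (fderiv ℝ f (y + τ • pt L.X (gw b c)) (pt L.X (gw b c))) τ := fun τ hτ =>
      (diff (r τ hτ).1 hf).hasFDerivAt.comp_hasDerivAt τ (hd τ)
    have := monotoneOn_of_deriv_nonneg (convex_Icc (0 : ℝ) 1)
      (fun τ hτ => (d τ hτ).continuousAt.continuousWithinAt)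
      (fun τ hτ => (d τ (interior_subset hτ)).differentiableAt.differentiableWithinAt)
      (fun τ hτ => by
        have hτ := interior_subset hτ
        rw [(d τ hτ).deriv]
        generalize hx : y + τ • pt L.X (gw b c) = x
        rw [pt_gw, map_sum]
        refine Finset.sum_nonneg fun q _ => ?_
        by_cases a : c q = 0
        · simp [a]
        rw [map_smul, smul_eq_mul]
        refine mul_nonneg (h0 q) (h x (hx ▸ (r τ hτ).1) q a ?_ ?_)
        · rw [← hx, (r τ hτ).2]; exact g2 τ hτ q (.inr a)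
        · rw [← hx, (r τ hτ).2]; exact g2 τ hτ b (.inl rfl))
      (left_mem_Icc.2 zero_le_one) hτ hτ.1
    simpa using this

end LC

/-! ### the base -/

section base

variable [FiniteDimensional ℝ E] {R : Real P E} {W : Set E} {δ : ℝ} {A : Set P}

/-- the coordinates of a realisation -/
def LC.base (M : Mol (bary R) W δ) (hδ : 0 < δ) (hs : Fintype.card P * δ ≤ 1 / 100)
    (hA : A.OrdConnected) (hW : IsOpen W) (hB : W ⊆ interior R.B)
    (hK : ∀ ν, IsWt ν → wS Aᶜ ν ≤ 1 / 6 → pt R.x ν ∈ W) : LC E A δ where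
  U := W ∩ {y | wS Aᶜ (M.Λ y) < 1 / 4}
  X := R.x
  lam := R.wt
  mu := M.Λ
  δ0 := hδ
  small := hs
  conv := hA
  isOpen := hW.inter (isOpen_lt ((wL Aᶜ).continuous.comp M.smooth.continuous) continuous_const)
  cont := R.continuousOn_wt.mono fun _ h => interior_subset (hB h.1)
  smooth := M.smooth.contDiffOn
  wt _ h := Real.wt_mem (interior_subset (hB h.1))
  pos _ h := Real.cmb_wt (interior_subset (hB h.1))
  real ν h k := by
    have e1 : R.wt (pt R.x ν) = ν := Real.wt_cmb h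
    refine ⟨⟨hK ν h k, ?_⟩, e1⟩
    have := wS_le_add (M.close _ (hK ν h k)) hδ.le Aᶜ
    rw [bary_lam, e1] at this
    show wS _ _ < _
    linarith
  nonneg y _ := M.nonneg y
  sum_one y h := M.sum_one y h.1
  close y h := M.close y h.1
  supp y h q t h1 h2 := by
    obtain ⟨σ, k1, k2, k3⟩ := M.supp y h.1 q h1
    exact IsChain.total k1 (Finset.mem_coe.2 k2) (Finset.mem_coe.2 (k3 t h2))
  der y h := M.der y h.1
  hv _ h := h.2

theorem LC.base_fld (M : Mol (bary R) W δ) (hδ : 0 < δ) (hs : Fintype.card P * δ ≤ 1 / 100)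
    (hA : A.OrdConnected) (hW : IsOpen W) (hB : W ⊆ interior R.B)
    (hK : ∀ ν, IsWt ν → wS Aᶜ ν ≤ 1 / 6 → pt R.x ν ∈ W) :
    (LC.base M hδ hs hA hW hB hK).Fld (M.fld fun _ _ => 1) := fun y _ =>
  ⟨rate (fun _ _ => 1) δ (M.Λ y), rate_nonneg (fun _ _ => zero_le_one) hδ _,
    fun _ _ h => ⟨(rate_ne hδ h).1, (rate_ne hδ h).2.2⟩,
    fun _ _ h hs ht => rate_pos hδ h zero_lt_one hs ht, by
      simp only [Mol.fld, upV, pt_sum, pt_smul, pt_sub, pt_e]
      rfl⟩

end base

end Crest.Agent.X212.Mol27
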