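import Crest.Agent.X212.Mol27.Phi
import Crest.Agent.X212.Cut21.Cov
import Crest.Agent.X212.Hel40.Bas

-- ▼ part X212/Mol27/Rc
section

/-!
# X212 / Mol27 (helper27): walking to the suture below a sheet (combinatorics)
-/

set_option autoImplicit false
set_option linter.unusedSectionVars false

open Set Classical
open Crest.Agent.X212.Hp13 Crest.Agent.X212.Alg36 Crest.Agent.X212.Cut21

noncomputable section

namespace Crest.Agent.X212.Mol27

variable {P : Type} [PartialOrder P] [Fintype P] {A : Set P} {z : P → P → ℤ} {b o : P}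
  {lo hi lo' hi' k : ℤ}

/-- the pair `b ≤ o` at level `k` reaches the suture through levels in `[lo, hi]` -/
inductive Rc (A : Set P) (z : P → P → ℤ) (lo hi : ℤ) : P → P → ℤ → Prop
  | sut {x b o : P} {k : ℤ} : x ∉ A → x ≤ b → lo ≤ k → k ≤ hi → Rc A z lo hi b o k
  | up {b c o : P} {k : ℤ} : c ∈ A → b ≤ c → c ≤ o → lo ≤ k → k ≤ hi →
      Rc A z lo hi c o (k + z b c) → Rc A z lo hi b o k
  | dn {b c o : P} {k : ℤ} : c ∈ A → c ≤ b → lo ≤ k → k ≤ hi →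
      Rc A z lo hi c o (k - z c b) → Rc A z lo hi b o k
  | mv {b o p : P} {k : ℤ} : p ∉ A → b ≤ p → Cm o p → Rc A z lo hi b p k → Rc A z lo hi b o k

theorem Rc.mem (h : Rc A z lo hi b o k) : lo ≤ k ∧ k ≤ hi := by
  induction h with
  | sut _ _ h1 h2 => exact ⟨h1, h2⟩
  | up _ _ _ h1 h2 => exact ⟨h1, h2⟩
  | dn _ _ h1 h2 => exact ⟨h1, h2⟩
  | mv _ _ _ _ ih => exact ih

theorem Rc.mono (h : Rc A z lo hi b o k) (h1 : lo' ≤ lo) (h2 : hi ≤ hi') : Rc A z lo' hi' b o k := by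
  induction h with
  | sut a1 a2 a3 a4 => exact .sut a1 a2 (h1.trans a3) (a4.trans h2)
  | up a1 a2 a3 a4 a5 _ ih => exact .up a1 a2 a3 (h1.trans a4) (a5.trans h2) ih
  | dn a1 a2 a4 a5 _ ih => exact .dn a1 a2 (h1.trans a4) (a5.trans h2) ih
  | mv a1 a2 a3 _ ih => exact .mv a1 a2 a3 ih

theorem rc_of_pp0 (hz : Zc A z) (h : PP A 0 b o) (hb : b ∈ A) :
    ∃ n : ℕ, ∀ k, Rc A z (k - n) (k + n) b o k := by
  induction h with
  | sut a1 a2 => exact ⟨0, fun k => .sut a1 a2 (by simp) (by simp)⟩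
  | low _ _ a3 => exact absurd a3 (lt_irrefl _)
  | up a1 a2 a3 _ _ ih =>
    obtain ⟨n, hn⟩ := ih a1
    have := hz.nn _ hb _ a1 a2
    have := hz.le _ hb _ a1 a2
    exact ⟨n + 1, fun k => .up a1 a2 a3 (by omega) (by omega) ((hn _).mono (by omega) (by omega))⟩
  | dn a1 a2 _ _ ih =>
    obtain ⟨n, hn⟩ := ih a1
    have := hz.nn _ a1 _ hb a2
    have := hz.le _ a1 _ hb a2
    exact ⟨n + 1, fun k => .dn a1 a2 (by omega) (by omega) ((hn _).mono (by omega) (by omega))⟩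
  | mv a1 a2 a3 _ ih => exact (ih hb).imp fun n hn k => .mv a1 a2 a3 (hn k)

/-- every pair reaches the suture without rising -/
def Rch0 (A : Set P) (z : P → P → ℤ) (n : ℕ) : Prop :=
  ∀ b ∈ A, ∀ o ∉ A, b ≤ o → ∀ k, Rc A z (k - n) k b o k

theorem exists_rch0 (hz : Zc A z) (h0 : CondP A 0) (h1 : CondP A z) : ∃ n, Rch0 A z n := by
  choose! n hn using fun (p : P × P) (h : p.1 ∈ A ∧ p.2 ∉ A ∧ p.1 ≤ p.2) =>
    rc_of_pp0 hz (h0 _ h.1 _ h.2.1 h.2.2) h.1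
  obtain ⟨N, hN⟩ := Finite.exists_le n
  have key : ∀ j : ℕ, j ≤ N → ∀ b ∈ A, ∀ o ∉ A, b ≤ o → ∀ k,
      Rc A z (k - N - j) (k + N - j) b o k := by
    intro j
    induction j with
    | zero =>
      intro _ b hb o ho h k
      have := hN (b, o)
      exact (hn (b, o) ⟨hb, ho, h⟩ k).mono (by omega) (by omega)
    | succ j ih =>
      intro hj b hb o ho h k
      have hp := h1 b hb o ho h
      induction hp with
      | sut a1 a2 => exact .sut a1 a2 (by omega) (by omega)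
      | low a1 a2 a3 =>
        have := hz.le _ a1 _ hb a2
        exact .dn a1 a2 (by omega) (by omega)
          ((ih (by omega) _ a1 _ ho (a2.trans h) _).mono (by omega) (by omega))
      | up a1 a2 a3 a4 _ ih' =>
        exact .up a1 a2 a3 (by omega) (by omega) (by simpa [a4] using ih' a1 ho a3)
      | dn a1 a2 a4 _ ih' =>
        exact .dn a1 a2 (by omega) (by omega) (by simpa [a4] using ih' a1 ho (a2.trans h))
      | mv a1 a2 a3 _ ih' => exact .mv a1 a2 a3 (ih' hb a1 a2)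
  exact ⟨2 * N, fun b hb o ho h k => (key N le_rfl b hb o ho h k).mono (by omega) (by omega)⟩

theorem condM_dual (h : CondM A z) : CondP (P := Pᵒᵈ) A fun x y => z y x := fun a ha o ho k => by
  have := h a ha o ho k
  clear ha ho k
  induction this with
  | sut a1 a2 => exact .sut a1 a2
  | hi a1 a2 a3 => exact .low a1 a2 a3
  | dn a1 a2 a3 a4 _ ih => exact .up a1 a2 a3 a4 ih
  | up a1 a2 a3 _ ih => exact .dn a1 a2 a3 ih
  | mv a1 a2 a3 _ ih => exact .mv a1 a2 (Or.symm a3) ih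

theorem cb_ind_pos {S : Set P} {x y : P} (h : 0 < cb (ind S) x y) : x ∉ S ∧ y ∈ S := by
  unfold cb ind at h
  split_ifs at h <;> simp_all

/-- no closed component of `R₊` -/
theorem condP_zero (hA : A.OrdConnected) (h : NC A (Rp A)) : CondP A 0 := fun a ha o ho k => by
  refine h.ind coc_Rp (mono_Rp hA) (G := fun x y _ => x ∈ A → PP A 0 x y) (k := 0)
    (fun _ _ _ _ hx _ _ _ n => absurd n hx) (fun x y w k t h0 h1 => ?_) (fun x y w k t h0 h1 => ?_)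
    (Dp.of_left ha k) le_rfl ?_ ha
  · have hy := (cb_ind_pos (h0.trans_lt h1)).2
    have hw := op_of_le hA hy t.2.1
    exact ⟨fun g hx => .mv hy.1 t.1 (.inr t.2.1) (g hx),
      fun g hx => .mv hw.1 (t.1.trans t.2.1) (.inl t.2.1) (g hx)⟩
  · have hy := (cb_ind_pos (h0.trans_lt h1)).1
    refine ⟨fun g hx => ?_, fun g hy' => ?_⟩
    · have : y ∈ A := by_contra fun n => hy ⟨n, x, hx, t.1⟩
      exact .up this t.1 t.2.1 rfl (g this)
    · by_cases hx : x ∈ A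
      exacts [.dn hx t.1 rfl (g hx), .sut hx t.1]
  · rw [Rp, cb, ind_of_mem (E := {x | x ∉ A ∧ ∃ a ∈ A, a ≤ x}) ⟨ho, a, ha, k⟩,
      ind_of_not (E := {x | x ∉ A ∧ ∃ a ∈ A, a ≤ x}) fun n => n.1 ha]
    norm_num

/-- no closed component of `R₋` -/
theorem condM_zero (hA : A.OrdConnected) (h : NC A (Rm A)) : CondM A 0 := fun a ha o ho k => by
  refine h.ind coc_Rm mono_Rm (G := fun x y _ => y ∈ A → PM A 0 y x) (k := 0)
    (fun _ _ _ _ _ hy _ _ n => absurd n hy) (fun x y w k t h0 h1 => ?_) (fun x y w k t h0 h1 => ?_)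
    (Dp.of_right ha k) le_rfl ?_ ha
  · obtain ⟨-, c, hc, hy⟩ := cb_ind_pos (h0.trans_lt h1)
    refine ⟨fun g hw => ?_, fun g hy' => ?_⟩
    · have : y ∈ A := hA.out hc hw ⟨hy, t.2.1⟩
      exact .dn this t.2.1 t.1 rfl (g this)
    · by_cases hw : w ∈ A
      exacts [.up hw t.2.1 rfl (g hw), .sut hw t.2.1]
  · have hy := (cb_ind_pos (h0.trans_lt h1)).1
    exact ⟨fun g hw => .mv (fun n => hy ⟨y, n, le_rfl⟩) t.2.1 (.inl t.1) (g hw),
      fun g hw => .mv (fun n => hy ⟨x, n, t.1⟩) (t.1.trans t.2.1) (.inr t.1) (g hw)⟩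
  · rw [Rm, cb, ind_of_mem (E := {x | ∃ a ∈ A, a ≤ x}) ⟨a, ha, le_rfl⟩,
      ind_of_not (E := {x | ∃ a ∈ A, a ≤ x}) fun ⟨c, hc, n⟩ => ho (hA.out hc ha ⟨n, k⟩)]
    norm_num

/-- the combinatorial input of one stage -/
structure Cnd (A : Set P) (z : P → P → ℤ) : Prop where
  zc : Zc A z
  up : ∃ n, Rch0 A z n
  dn : ∃ n, Rch0 (P := Pᵒᵈ) A (fun x y => z y x) n

theorem cnd_of {s : St} {z : s.P → s.P → ℤ} (hs : Taut s) (h : Ind26.Adm s z) : Cnd s.A z :=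
  have hz := zc_of h.sf.coc h.sf.mono h.spr
  ⟨hz, exists_rch0 hz (condP_zero hs.conv hs.sfp.nc) (condP_iff.2 h.cu),
    exists_rch0 hz.dual (condM_dual (condM_zero hs.conv hs.sfm.nc)) (condM_dual (condM_iff.2 h.cd))⟩

theorem cnd_zero {s : St} (hs : Taut s) : Cnd s.A 0 :=
  ⟨zc_zero _, exists_rch0 (zc_zero _) (condP_zero hs.conv hs.sfp.nc) (condP_zero hs.conv hs.sfp.nc),
    exists_rch0 (zc_zero _) (condM_dual (condM_zero hs.conv hs.sfm.nc))
      (condM_dual (condM_zero hs.conv hs.sfm.nc))⟩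

end Crest.Agent.X212.Mol27
end
end

-- ▼ part X212/Mol27/Cond
section

/-!
# X212 / Mol27 (helper27): walking to the suture below a sheet (geometry)
-/

set_option autoImplicit false
set_option linter.unusedSectionVars false

open Set Filter Topology Function Metric Classical
open scoped ContDiff NNReal Real
open Crest.Agent.X212.Sm10 Crest.Agent.X212.Hp13 Crest.Agent.X212.Alg36

noncomputable section

namespace Crest.Agent.X212.Mol27

variable {E : Type} [NormedAddCommGroup E] [NormedSpace ℝ E]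
  {P : Type} [PartialOrder P] [Fintype P] {A : Set P} {z : P → P → ℤ} {δ a0 a α : ℝ}
  {L : LC E A δ} {tp tn : E → ℝ} {y : E} {b c o x q : P} {k : ℤ}

variable (a0 a α L tp tn) in
/-- the two colours of a stage -/
structure Stg : Prop where
  hp : Pl a0 a α L tp
  hn : Pl (P := Pᵒᵈ) a0 a α L.dual tn
  k10 : 10 * (Fintype.card P * δ) ≤ α
  lo : α ≤ a
  hi : a + 4 * α ≤ 1 / 16

theorem Stg.dual (S : Stg a0 a α L tp tn) : Stg (P := Pᵒᵈ) a0 a α L.dual tn tp :=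
  ⟨S.hn, S.hp, S.k10, S.lo, S.hi⟩

variable (α L tp tn) in
/-- the compact neighbourhood of the plateau -/
def BB : Set E := {y | y ∈ L.U ∧ tp y ≤ sig (3 * α) ∧ tn y ≤ sig (3 * α)}

variable (a α L) in
/-- the free points near the suture -/
def QQ : Set E :=
  {y | y ∈ L.U ∧ (a + α / 2 ≤ L.p y ∧ L.p y ≤ a + 2 * α) ∧ a + α / 2 ≤ L.m y ∧ L.m y ≤ a + 2 * α}

variable (z a L) in
/-- the lifted point of level `k` based at `b` -/
def pnt (b : P) (k : ℤ) (y : E) : E × ℝ := (y, k + L.uu z a b y)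

variable (z a α L tp tn) in
/-- lifted points under the sheet `0` -/
def GG (lo hi : ℝ) : Set (E × ℝ) := {q | q.1 ∈ BB α L tp tn ∧ 0 < tp q.1 ∧ q.2 < 0 ∧ lo ≤ q.2 ∧
  q.2 ≤ hi ∧ ∃ b ∈ A, δ ≤ L.lam q.1 b ∧ ∃ k : ℤ, q = pnt z (a + 4 * α) L b k q.1}

theorem GG_mono {lo hi lo' hi' : ℝ} (h1 : lo' ≤ lo) (h2 : hi ≤ hi') :
    GG z a α L tp tn lo hi ⊆ GG z a α L tp tn lo' hi' :=
  fun _ ⟨a1, a2, a3, a4, a5, a6⟩ => ⟨a1, a2, a3, h1.trans a4, a5.trans h2, a6⟩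

theorem join0 {w : E} (hb : b ∈ A) (h : ∀ τ ∈ Icc (0 : ℝ) 1, y + τ • w ∈ BB α L tp tn ∧
    0 < tp (y + τ • w) ∧ δ ≤ L.lam (y + τ • w) b ∧ k + L.uu z (a + 4 * α) b (y + τ • w) < 0) :
    JoinedIn (GG z a α L tp tn (k - 1) (k + 1)) (pnt z (a + 4 * α) L b k y)
      (pnt z (a + 4 * α) L b k (y + w)) := by
  have hc : Continuous fun τ : ℝ => y + τ • w := by fun_prop
  refine JoinedIn.ofLine (f := fun τ => pnt z (a + 4 * α) L b k (y + τ • w))
    (hc.continuousOn.prodMk (continuousOn_const.add ((L.contDiffOn_uu z _ b).continuousOn.comp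
      hc.continuousOn fun τ hτ => (h τ hτ).1.1))) (by simp) (by simp) ?_
  rintro _ ⟨τ, hτ, rfl⟩
  obtain ⟨h1, h2, h3, h4⟩ := h τ hτ
  refine ⟨h1, h2, h4, ?_, ?_, b, hb, h3, k, rfl⟩
  · exact (sub_eq_add_neg _ _).le.trans (add_le_add le_rfl (LC.le_uu b _))
  · exact add_le_add le_rfl (LC.uu_le b _)

theorem wS_not (hb : b ∈ A) {ν : P → ℝ} (h0 : ∀ q, 0 ≤ ν q) (h : ∀ q, ν q ≠ 0 → Cm b q) :
    wS Aᶜ ν ≤ wS (Op A) ν + wS (Om A) ν :=
  (wS_mono h0 fun q hq n => (h q hq).imp (fun k => ⟨n, b, hb, k⟩) fun k => ⟨n, b, hb, k⟩).trans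
    (wS_union_le h0 _ _)

theorem LC.w_le_sub (hy : y ∈ L.U) {T : Set P} (h : b ∉ T) : L.w T y ≤ 1 - L.mu y b := by
  have h1 : L.mu y b ≤ L.w Tᶜ y := le_wS (L.nonneg y hy) h
  linarith [LC.w_compl hy T]

theorem kap_nonneg (L : LC E A δ) : (0 : ℝ) ≤ Fintype.card P * δ :=
  mul_nonneg (Nat.cast_nonneg _) L.δ0.le

theorem le_kap (L : LC E A δ) (b : P) : δ ≤ Fintype.card P * δ :=
  le_mul_of_one_le_left L.δ0.le (by exact_mod_cast Fintype.card_pos_iff.2 ⟨b⟩)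

variable (a α A δ) in
/-- robust weights -/
structure Rb (b : P) (ν : P → ℝ) : Prop where
  wt : IsWt ν
  p1 : a + Fintype.card P * δ < wS (Op A) ν
  p2 : wS (Op A) ν + Fintype.card P * δ ≤ a + 2 * α
  m2 : wS (Om A) ν + Fintype.card P * δ ≤ a + 2 * α
  hv : 1 / 3 ≤ ν b

namespace Stg

variable (S : Stg a0 a α L tp tn) (hz : Zc A z)
include S

theorem α_pos [Nonempty P] : 0 < α := by
  linarith [S.k10, le_kap L (Classical.arbitrary P), L.δ0]

theorem mem_BB (hy : y ∈ L.U) (h1 : L.p y ≤ a + 2 * α) (h2 : L.m y ≤ a + 2 * α) : y ∈ BB α L tp tn :=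
  ⟨hy, S.hp.fat y hy h1, S.hn.fat y hy h2⟩

theorem p_le (hy : y ∈ BB α L tp tn) : L.p y ≤ a + 3 * α := S.hp.thin y hy.1 hy.2.1
theorem m_le (hy : y ∈ BB α L tp tn) : L.m y ≤ a + 3 * α := S.hn.thin y hy.1 hy.2.2

theorem tp_pos (hy : y ∈ L.U) (h : a < L.p y) : 0 < tp y :=
  (S.hp.nn y hy).lt_of_ne' fun e => h.not_ge (S.hp.low y hy e)

theorem sixth (hb : b ∈ A) {ν : P → ℝ} (h : Rb A δ a α b ν) : wS Aᶜ ν ≤ 1 / 6 := by
  have := wS_not hb h.wt.nonneg fun q hq => h.wt.cm (by linarith [h.hv]) hq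
  linarith [h.p2, h.m2, S.hi, S.k10, kap_nonneg L, S.lo]

include hz

theorem neg_of (hy : y ∈ L.U) (hb : b ∈ A) (hk : k ≤ -1) (h : 1 / 4 ≤ L.lam y b) :
    k + L.uu z (a + 4 * α) b y < 0 := by
  have h1 := LC.uu_lt (L := L) (z := z) (a := a + 4 * α) (y := y) (b := b) (by linarith [S.hi]) (by
    linarith [LC.w_le_sub hy (hz.not_SP hb), LC.lam_lt hy b, S.hi, le_kap L b, L.small])
  have h2 : (k : ℝ) ≤ -1 := by exact_mod_cast hk
  linarith

theorem join1 (hb : b ∈ A) (hk : k ≤ -1) {ν ν' : P → ℝ} (h : Rb A δ a α b ν) (h' : Rb A δ a α b ν')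
    (hc : ∀ s t, ν s ≠ 0 → ν' t ≠ 0 → Cm s t) :
    JoinedIn (GG z a α L tp tn (k - 1) (k + 1)) (pnt z (a + 4 * α) L b k (pt L.X ν))
      (pnt z (a + 4 * α) L b k (pt L.X ν')) := by
  rw [show pt L.X ν' = pt L.X ν + pt L.X (ν' - ν) by rw [pt_sub, add_sub_cancel]]
  refine join0 hb fun τ hτ => ?_
  obtain ⟨r1, r2⟩ := L.real_seg h.wt h'.wt hc (S.sixth hb h) (S.sixth hb h') hτ
  have e1 := LC.w_le r1 (Op A)
  have e2 := LC.le_w r1 (Op A)
  have e3 := LC.w_le r1 (Om A)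
  rw [r2, wS_add, wS_smul, wS_sub] at e1 e2 e3
  have e4 : 1 / 3 ≤ L.lam (pt L.X ν + τ • pt L.X (ν' - ν)) b := by
    rw [r2]
    simp only [Pi.add_apply, Pi.smul_apply, Pi.sub_apply, smul_eq_mul]
    nlinarith [h.hv, h'.hv, hτ.1, hτ.2]
  refine ⟨S.mem_BB r1 (e1.trans ?_) (e3.trans ?_), S.tp_pos r1 ?_, ?_, S.neg_of hz r1 hb hk (by linarith)⟩
  · nlinarith [h.p2, h'.p2, hτ.1, hτ.2]
  · nlinarith [h.m2, h'.m2, hτ.1, hτ.2]
  · have : a + Fintype.card P * δ < wS (Op A) ν + τ * (wS (Op A) ν' - wS (Op A) ν) := by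
      rcases le_total (wS (Op A) ν) (wS (Op A) ν') with n | n <;> nlinarith [h.p1, h'.p1, hτ.1, hτ.2]
    simp only [LC.p]
    linarith
  · linarith [le_kap L b, L.small]

end Stg

/-- weights on three vertices -/
def w3 (b c o : P) (s β : ℝ) : P → ℝ := (1 - s - β) • e b + s • e c + β • e o

theorem w3_ne {s β : ℝ} (h : w3 b c o s β q ≠ 0) : q = b ∨ q = c ∨ q = o := by
  by_contra! n
  exact h (by simp [w3, e_apply, n.1, n.2.1, n.2.2])

theorem wS_w3 (T : Set P) (s β : ℝ) :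
    wS T (w3 b c o s β) = (1 - s - β) * io T b + s * io T c + β * io T o := by
  simp only [w3, wS_add, wS_smul, wS_e]

theorem e_nonneg (s t : P) : 0 ≤ e s t := by rw [e_apply]; split_ifs <;> norm_num

theorem le_w3 {s β : ℝ} (hs : 0 ≤ s) (hβ : 0 ≤ β) : 1 - s - β ≤ w3 b c o s β b := by
  have := mul_nonneg hs (e_nonneg c b)
  have := mul_nonneg hβ (e_nonneg o b)
  simp only [w3, Pi.add_apply, Pi.smul_apply, smul_eq_mul, e_apply b b, if_true]
  linarith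

/-- three pairwise comparable points -/
def C3 (b c o : P) : Prop := Cm b c ∧ Cm b o ∧ Cm c o

theorem C3.cm (h : C3 b c o) {s t : P} (hs : s = b ∨ s = c ∨ s = o) (ht : t = b ∨ t = c ∨ t = o) :
    Cm s t := by
  rcases hs with rfl | rfl | rfl <;> rcases ht with rfl | rfl | rfl
  exacts [Cm.rfl, h.1, h.2.1, h.1.symm, Cm.rfl, h.2.2, h.2.1.symm, h.2.2.symm, Cm.rfl]

theorem isWt_w3 (h : C3 b c o) {s β : ℝ} (hs : 0 ≤ s) (hβ : 0 ≤ β) (h1 : s + β ≤ 1) :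
    IsWt (w3 b c o s β) :=
  isWt_of (fun q => add_nonneg (add_nonneg (mul_nonneg (by linarith) (e_nonneg _ _))
      (mul_nonneg hs (e_nonneg _ _))) (mul_nonneg hβ (e_nonneg _ _)))
    (by simp only [w3, Pi.add_apply, Pi.smul_apply, smul_eq_mul, Finset.sum_add_distrib,
      ← Finset.mul_sum, sum_e]; ring) fun _ _ a b => h.cm (w3_ne a) (w3_ne b)

theorem not_om (hA : A.OrdConnected) (h : o ∈ Op A) : o ∉ Om A :=
  fun ⟨h1, _, h2, h3⟩ => let ⟨_, _, h4, h5⟩ := h; h1 (hA.out h4 h2 ⟨h5, h3⟩)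

namespace Stg

variable (S : Stg a0 a α L tp tn) (hz : Zc A z)
include S

theorem rb_w3 (hb : b ∈ A) (hc : c ∉ Op A) (ho : o ∈ Op A) (h : C3 b c o) {s : ℝ} (hs : 0 ≤ s)
    (h1 : s ≤ (1 - (a + α)) / 2) (h2 : c ∈ A ∨ s ≤ a + α) : Rb A δ a α b (w3 b c o s (a + α)) := by
  have k0 := kap_nonneg L
  have k1 := S.k10
  have k2 := S.lo
  have k3 := S.hi
  have k4 := le_kap L b
  have k5 := L.δ0
  have e1 : wS (Op A) (w3 b c o s (a + α)) = a + α := by
    rw [wS_w3, io_not (fun n => n.1 hb), io_not hc, io_mem ho]; ring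
  refine ⟨isWt_w3 h hs (by linarith) (by linarith), by linarith, by linarith, ?_,
    le_trans (by linarith) (le_w3 hs (by linarith))⟩
  rw [wS_w3, io_not (fun n => n.1 hb), io_not (not_om L.conv ho)]
  rcases h2 with h2 | h2
  · rw [io_not (fun n => n.1 h2)]; linarith
  · nlinarith [io_le (Om A) c, io_nonneg (Om A) c]

theorem rb_st (hb : b ∈ A) (ho : o ∈ Op A) (h : b ≤ o) : Rb A δ a α b (w3 b b o 0 (a + α)) :=
  S.rb_w3 hb (fun n => n.1 hb) ho ⟨Cm.rfl, .inl h, .inl h⟩ le_rfl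
    (by linarith [S.hi, S.k10, kap_nonneg L]) (.inl hb)

include hz

theorem join_mid (hb : b ∈ A) (hc : c ∈ A) (ho : o ∈ Op A) (h : C3 b c o) (hk : k ≤ -1) :
    JoinedIn (GG z a α L tp tn (k - 1) (k + 1)) (pnt z (a + 4 * α) L b k (pt L.X (w3 b b o 0 (a + α))))
      (pnt z (a + 4 * α) L b k (pt L.X (w3 b c o ((1 - (a + α)) / 2) (a + α)))) :=
  S.join1 hz hb hk (S.rb_st hb ho (op_lt L.conv hb ho h.2.1).le)
    (S.rb_w3 hb (fun n => n.1 hc) ho h (by linarith [S.hi, S.k10, kap_nonneg L]) le_rfl (.inl hc))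
    fun _ _ a b => h.cm ((w3_ne a).elim .inl (Or.imp_right .inr)) (w3_ne b)

theorem join_up (hb : b ∈ A) (hc : c ∈ A) (ho : o ∈ Op A) (h1 : b ≤ c) (h2 : c ≤ o) {lo hi : ℤ}
    (k1 : lo ≤ k) (k2 : k + z b c ≤ hi) (k3 : hi ≤ -1) :
    JoinedIn (GG z a α L tp tn (lo - 1) (hi + 1))
      (pnt z (a + 4 * α) L b k (pt L.X (w3 b b o 0 (a + α))))
      (pnt z (a + 4 * α) L c (k + z b c) (pt L.X (w3 c c o 0 (a + α)))) := by
  have k0 := hz.nn b hb c hc h1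
  have c3 : C3 b c o := ⟨.inl h1, .inl (h1.trans h2), .inl h2⟩
  have c3' : C3 c b o := ⟨.inr h1, .inl h2, .inl (h1.trans h2)⟩
  have j1 := S.join_mid hz hb hc ho c3 (k := k) (by omega)
  have j2 := S.join_mid hz hc hb ho c3' (k := k + z b c) (by omega)
  have e1 : w3 c b o ((1 - (a + α)) / 2) (a + α) = w3 b c o ((1 - (a + α)) / 2) (a + α) := by
    rw [w3, w3, show 1 - (1 - (a + α)) / 2 - (a + α) = (1 - (a + α)) / 2 by ring, add_comm (_ • e c)]
  have t1 := j1.target_mem.1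
  have hs : 0 ≤ (1 - (a + α)) / 2 := by linarith [S.hi, S.k10, kap_nonneg L]
  have r1 := S.rb_w3 hb (fun n => n.1 hc) ho c3 hs le_rfl (.inl hc)
  have r2 := S.rb_w3 hc (fun n => n.1 hb) ho c3' hs le_rfl (.inl hb)
  rw [e1] at j2 r2
  have r3 := (L.real _ r1.wt (S.sixth hb r1)).2
  have e2 := LC.uu_change hz (a := a + 4 * α) (by linarith [S.hi]) t1.1
    (by linarith [S.p_le t1, S.k10, kap_nonneg L]) (by linarith [S.m_le t1, S.k10, kap_nonneg L]) hb hc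
    (by show δ ≤ L.lam (pt _ _) _; rw [r3]; linarith [r1.hv, le_kap L b, L.small])
    (by show δ ≤ L.lam (pt _ _) _; rw [r3]; linarith [r2.hv, le_kap L b, L.small]) h1
  refine (j1.mono (GG_mono ?_ ?_)).trans (Eq.subst (motive := fun q => JoinedIn _ q _) ?_
    (j2.symm.mono (GG_mono ?_ ?_)))
  · exact_mod_cast (by omega : lo - 1 ≤ k - 1)
  · exact_mod_cast (by omega : k + 1 ≤ hi + 1)
  · refine Prod.ext rfl ?_
    simp only [pnt] at e2 ⊢
    rw [e2]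
    push_cast
    ring
  · exact_mod_cast (by omega : lo - 1 ≤ k + z b c - 1)
  · exact_mod_cast (by omega : k + z b c + 1 ≤ hi + 1)

theorem join_rc {lo hi : ℤ} (h : Rc A z lo hi b o k) (k3 : hi ≤ -1) (hb : b ∈ A) (ho : o ∉ A)
    (hbo : b ≤ o) : ∃ q : E × ℝ, q.1 ∈ QQ a α L ∧ JoinedIn (GG z a α L tp tn (lo - 1) (hi + 1))
      (pnt z (a + 4 * α) L b k (pt L.X (w3 b b o 0 (a + α)))) q := by
  induction h with
  | @sut x b o k a1 a2 a3 a4 =>
    have ho' : o ∈ Op A := ⟨ho, b, hb, hbo⟩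
    have hx : x ∈ Om A := ⟨a1, b, hb, a2⟩
    have c3 : C3 b x o := ⟨.inr a2, .inl hbo, .inl (a2.trans hbo)⟩
    have r1 := S.rb_w3 hb (fun n => not_om L.conv n hx) ho' c3 (s := a + α)
      (by linarith [S.lo, S.k10, kap_nonneg L]) (by linarith [S.hi, S.k10, kap_nonneg L]) (.inr le_rfl)
    have j := S.join1 hz hb (a4.trans k3) (S.rb_st hb ho' hbo) r1
      fun _ _ a b => c3.cm ((w3_ne a).elim .inl (Or.imp_right .inr)) (w3_ne b)
    refine ⟨_, ?_, j.mono (GG_mono (by exact_mod_cast (by omega : lo - 1 ≤ k - 1))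
      (by exact_mod_cast (by omega : k + 1 ≤ hi + 1)))⟩
    obtain ⟨r2, r3⟩ := L.real _ r1.wt (S.sixth hb r1)
    have e1 := LC.w_le r2 (Op A)
    have e2 := LC.le_w r2 (Op A)
    have e3 := LC.w_le r2 (Om A)
    have e4 := LC.le_w r2 (Om A)
    rw [r3, wS_w3] at e1 e2 e3 e4
    rw [io_not (fun n => n.1 hb), io_not (fun n => not_om L.conv n hx), io_mem ho'] at e1 e2
    rw [io_not (fun n => n.1 hb), io_mem hx, io_not (not_om L.conv ho')] at e3 e4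
    have k0 := kap_nonneg L
    have k1 := S.k10
    exact ⟨r2, ⟨by simp only [pnt, LC.p]; linarith, by simp only [pnt, LC.p]; linarith⟩,
      by simp only [pnt, LC.m]; linarith, by simp only [pnt, LC.m]; linarith⟩
  | up a1 a2 a3 a4 _ a6 ih =>
    exact (ih a1 ho a3).imp fun q hq => ⟨hq.1,
      (S.join_up hz hb a1 ⟨ho, _, hb, hbo⟩ a2 a3 a4 a6.mem.2 k3).trans hq.2⟩
  | @dn b c o k a1 a2 _ a5 a6 ih =>
    refine (ih a1 ho (a2.trans hbo)).imp fun q hq => ⟨hq.1, JoinedIn.trans ?_ hq.2⟩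
    have := (S.join_up hz a1 hb ⟨ho, _, hb, hbo⟩ a2 hbo a6.mem.1 (by simpa using a5) k3).symm
    rwa [sub_add_cancel] at this
  | @mv b o p k a1 a2 a3 a4 ih =>
    refine (ih hb a1 a2).imp fun q hq => ⟨hq.1, JoinedIn.trans ?_ hq.2⟩
    have c3 : C3 b o p := ⟨.inl hbo, .inl a2, a3⟩
    have := a4.mem
    exact (S.join1 hz hb (this.2.trans k3) (S.rb_st hb ⟨ho, b, hb, hbo⟩ hbo)
      (S.rb_st hb ⟨a1, b, hb, a2⟩ a2) fun _ _ a b =>
        c3.cm ((w3_ne a).elim .inl (Or.imp_right .inl)) ((w3_ne b).elim .inl (Or.imp_right .inr))).mono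
      (GG_mono (by exact_mod_cast (by omega : lo - 1 ≤ k - 1))
        (by exact_mod_cast (by omega : k + 1 ≤ hi + 1)))

end Stg

/-- gathering at a vertex of `A` does not increase a colour -/
theorem Pl0.gather_le {t : E → ℝ} (h : Pl0 a0 L t) (hb : b ∈ A) {x : E} (hx : x ∈ L.U)
    (hq : δ ≤ L.lam x q) (g : δ ≤ L.lam x b) : 0 ≤ fderiv ℝ (fun y => -t y) x (L.X b - L.X q) := by
  rw [fderiv_fun_neg, neg_apply, ← map_neg, neg_sub]
  by_cases k : q ∈ Op A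
  · exact h.mono x hx b q g hq (op_lt L.conv hb k (LC.cm_of_le hx g hq)).le
  · exact (h.inv x hx b q g hq (fun n => n.1 hb) k).ge

namespace Stg

variable (S : Stg a0 a α L tp tn) (hz : Zc A z)
include S hz

/-- first move: all the big weight goes to `b` -/
theorem join_gather (hy : y ∈ BB α L tp tn) (h0 : 0 < tp y) (hb : b ∈ A) (g : δ ≤ L.lam y b)
    (hk : k ≤ -2 ∨ L.w (SP A z b) y < 1 - (a + 4 * α)) (hk' : k ≤ -1) :
    ∃ y', wS (Op A) (L.lam y') ≤ a + α ∧ (∀ q ∉ Op A, q ≠ b → L.lam y' q ≤ δ) ∧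
      JoinedIn (GG z a α L tp tn (k - 1) (k + 1)) (pnt z (a + 4 * α) L b k y)
        (pnt z (a + 4 * α) L b k y') := by
  have k0 := kap_nonneg L
  have k1 := S.k10
  have k2 := S.lo
  have k3 := S.hi
  have k5 := L.δ0
  have hW := L.wt y hy.1
  set d : P → ℝ := fun q => max (L.lam y q - δ) 0 with hd
  have d0 : ∀ q, 0 ≤ d q := fun q => le_max_right _ _
  have d1 : wS (Op A) (L.lam y) - Fintype.card P * δ ≤ wS (Op A) d := by
    have := wS_le_card (S := Op A) (μ := L.lam y - d) k5.le fun q _ => by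
      linarith [le_max_left (L.lam y q - δ) 0, show (L.lam y - d) q = L.lam y q - d q from rfl]
    rw [wS_sub] at this
    linarith
  obtain ⟨θ, t0, t1, t2, t3⟩ : ∃ θ : ℝ, 0 ≤ θ ∧ θ ≤ 1 ∧ wS (Op A) (L.lam y) - θ * wS (Op A) d ≤ a + α ∧
      (θ = 0 ∨ a + α ≤ wS (Op A) (L.lam y) - θ * wS (Op A) d) := by
    rcases le_or_gt (wS (Op A) (L.lam y)) (a + α) with n | n
    · exact ⟨0, le_rfl, zero_le_one, by simpa using n, .inl rfl⟩
    · have p0 : 0 < wS (Op A) d := by linarith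
      refine ⟨(wS (Op A) (L.lam y) - (a + α)) / wS (Op A) d, div_nonneg (by linarith) p0.le,
        (div_le_one p0).2 (by linarith), ?_, .inr ?_⟩ <;> rw [div_mul_cancel₀ _ p0.ne'] <;> linarith
  set c : P → ℝ := fun q => if q = b then 0 else if q ∈ Op A then θ * d q else d q with hc
  have c0 : ∀ q, 0 ≤ c q := fun q => by
    simp only [hc]; split_ifs
    exacts [le_rfl, mul_nonneg t0 (d0 q), d0 q]
  have c1 : ∀ q, c q ≤ d q := fun q => by
    simp only [hc]; split_ifs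
    exacts [d0 q, mul_le_of_le_one_left (d0 q) t1, le_rfl]
  have c2 : ∀ q, c q ≠ 0 → δ + c q ≤ L.lam y q := fun q h => by
    have h1 := ((c0 q).lt_of_ne' h).trans_le (c1 q)
    have h2 : d q = L.lam y q - δ := max_eq_left (le_of_lt (by simpa [hd] using h1))
    linarith [c1 q]
  have c3 : wS (Op A) c = θ * wS (Op A) d := by
    rw [← wS_smul]
    refine le_antisymm (wS_le_wS fun q hq => ?_) (wS_le_wS fun q hq => ?_) <;>
      simp [hc, hq, show q ≠ b from fun e => hq.1 (e ▸ hb)]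
  have w1 : ∀ T, b ∉ T → wS T (gw b c) = -wS T c := fun T h => by rw [wS_gw, io_not h]; ring
  have s1 : wS Aᶜ (L.lam y) ≤ 1 / 6 := by
    linarith [LC.le_w hy.1 Aᶜ, LC.w_not hy.1, S.p_le hy, S.m_le hy, L.small]
  obtain ⟨r1, r2⟩ := LC.seg hy.1 g c0 c2 s1 (by
    rw [wS_add, w1 Aᶜ fun n => n hb]; linarith [wS_nonneg c0 Aᶜ])
  have one := right_mem_Icc.2 (zero_le_one (α := ℝ))
  refine ⟨y + pt L.X (gw b c), ?_, fun q h1 h2 => ?_, join0 hb fun τ hτ => ?_⟩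
  · have := (r1 1 one).2.1
    rw [one_smul, one_smul] at this
    rw [this, wS_add, w1 _ fun n => n.1 hb, c3]
    linarith
  · have := (r1 1 one).2.1
    rw [one_smul, one_smul] at this
    rw [this, Pi.add_apply, gw_ne c h2]
    simp only [hc, if_neg h2, if_neg h1]
    linarith [le_max_left (L.lam y q - δ) 0]
  obtain ⟨u1, u2, u3⟩ := r1 τ hτ
  refine ⟨⟨u1, le_trans (neg_le_neg_iff.1 (r2 _ S.hp.sm.neg
      (fun x hx q _ a1 a2 => S.hp.gather_le hb hx a1 a2) τ hτ)) hy.2.1,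
    le_trans (neg_le_neg_iff.1 (r2 _ S.hn.sm.neg
      (fun x hx q _ a1 a2 => S.hn.gather_le hb hx a1 a2) τ hτ)) hy.2.2⟩, ?_, ?_, ?_⟩
  · rcases t3 with rfl | t3
    · refine h0.trans_le (r2 _ S.hp.sm (fun x hx q h a1 a2 => ?_) τ hτ)
      exact (S.hp.inv x hx q b a1 a2 (fun n => h (by simp [hc, n])) fun n => n.1 hb).ge
    · refine S.tp_pos u1 ?_
      have := LC.le_w u1 (Op A)
      rw [u2, wS_add, wS_smul, w1 _ fun n => n.1 hb, c3] at this
      have : [Nonempty P] → 0 < α := S.α_pos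
      have := @this ⟨b⟩
      simp only [LC.p]
      nlinarith [hτ.2, mul_nonneg t0 (wS_nonneg d0 (Op A))]
  · rw [u2, Pi.add_apply, Pi.smul_apply, gw_self, smul_eq_mul]
    nlinarith [hτ.1, Finset.single_le_sum (fun q _ => c0 q) (Finset.mem_univ b)]
  · rcases hk with hk | hk
    · have : (k : ℝ) ≤ -2 := by exact_mod_cast hk
      linarith [LC.uu_le (L := L) (z := z) (a := a + 4 * α) b (y + τ • pt L.X (gw b c))]
    · have : (k : ℝ) ≤ -1 := by exact_mod_cast hk'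
      have h2 := LC.uu_lt (L := L) (z := z) (a := a + 4 * α) (b := b) (y := y + τ • pt L.X (gw b c))
        (by linarith) (by
          rw [LC.w, u3, wS_add, wS_smul, w1 _ (hz.not_SP hb)]
          rw [LC.w] at hk
          nlinarith [hτ.1, wS_nonneg c0 (SP A z b)])
      linarith

/-- second move: the weight of `O₊` is raised to the standard value -/
theorem join_raise (hy : y ∈ L.U) (h0 : 0 < tp y) (hb : b ∈ A) (hk : k ≤ -1)
    (h1 : wS (Op A) (L.lam y) ≤ a + α) (h2 : ∀ q ∉ Op A, q ≠ b → L.lam y q ≤ δ) :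
    ∃ o ∉ A, b ≤ o ∧ JoinedIn (GG z a α L tp tn (k - 1) (k + 1)) (pnt z (a + 4 * α) L b k y)
      (pnt z (a + 4 * α) L b k (pt L.X (w3 b b o 0 (a + α)))) := by
  have k0 := kap_nonneg L
  have k1 := S.k10
  have k2 := S.lo
  have k3 := S.hi
  have k4 := le_kap L b
  have k5 := L.δ0
  have hW := L.wt y hy
  obtain ⟨o, ho, g, -⟩ := S.hp.str y hy h0
  set θ := a + α - wS (Op A) (L.lam y) with hθ
  have t0 : 0 ≤ θ := sub_nonneg.2 h1
  have m1 : wS (Om A) (L.lam y) ≤ Fintype.card P * δ := wS_le_card k5.le fun q hq =>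
    h2 q (fun n => not_om L.conv n hq) fun e => hq.1 (e ▸ hb)
  have b1 : 1 - wS (Op A) (L.lam y) - Fintype.card P * δ ≤ L.lam y b := by
    have e1 := wS_compl (Op A ∪ {b}) (L.lam y)
    have e2 : wS (Op A ∪ {b})ᶜ (L.lam y) ≤ Fintype.card P * δ :=
      wS_le_card k5.le fun q hq => h2 q (fun n => hq (.inl n)) fun n => hq (.inr n)
    have e3 := wS_union_le hW.nonneg (Op A) {b}
    have e4 : wS {b} (L.lam y) = L.lam y b := by simp [wS, io]
    rw [hW.sum] at e1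
    linarith
  have gb : δ ≤ L.lam y b := by linarith
  have hbo := op_lt L.conv hb ho (LC.cm_of_le hy gb (g.le hy))
  have w1 : ∀ T, wS T (gw o (θ • e b)) = θ * (io T o - io T b) := fun T => by
    rw [wS_gw, wS_smul, wS_e]
    simp only [Pi.smul_apply, smul_eq_mul, ← Finset.mul_sum, sum_e]
    ring
  have w2 : gw o (θ • e b) b = -θ := by rw [gw_ne _ hbo.ne]; simp [e_apply]
  have s1 := wS_not hb hW.nonneg (LC.cm_lam hy gb)
  have c1 : ∀ q, (θ • e b) q ≠ 0 → q = b := fun q h => by_contra fun n => h (by simp [e_apply, n])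
  obtain ⟨r1, r2⟩ := LC.seg (c := θ • e b) hy (g.le hy) (fun q => mul_nonneg t0 (e_nonneg _ _))
    (fun q h => by rw [c1 q h]; simp [e_apply]; linarith) (by linarith)
    (by rw [wS_add, w1, io_mem (show o ∈ Aᶜ from ho.1), io_not (S := Aᶜ) fun n => n hb]; linarith)
  have r3 : ∀ τ : ℝ, wS (Op A) (L.lam y + τ • gw o (θ • e b)) = wS (Op A) (L.lam y) + τ * θ ∧
      wS (Om A) (L.lam y + τ • gw o (θ • e b)) = wS (Om A) (L.lam y) ∧
      (L.lam y + τ • gw o (θ • e b)) b = L.lam y b - τ * θ := fun τ => by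
    rw [wS_add, wS_add, wS_smul, wS_smul, w1, w1, io_mem ho, io_not (fun n => n.1 hb),
      io_not (not_om L.conv ho), io_not (fun n => n.1 hb), Pi.add_apply, Pi.smul_apply, w2]
    simp [sub_eq_add_neg]
  obtain ⟨v1, v2, -⟩ := r1 1 (right_mem_Icc.2 zero_le_one)
  obtain ⟨v3, v4, v5⟩ := r3 1
  rw [← v2] at v3 v4 v5
  rw [one_smul] at v1 v2 v3 v4 v5
  refine ⟨o, ho.1, hbo.le, (join0 (w := pt L.X (gw o (θ • e b))) hb fun τ hτ => ?_).trans ?_⟩
  · obtain ⟨u1, u2, -⟩ := r1 τ hτ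
    obtain ⟨u3, u4, u5⟩ := r3 τ
    rw [← u2] at u3 u4 u5
    have u6 : τ * θ ≤ θ := mul_le_of_le_one_left t0 hτ.2
    refine ⟨S.mem_BB u1 ((LC.w_le u1 _).trans (by linarith)) ((LC.w_le u1 _).trans (by linarith)),
      h0.trans_le (r2 _ S.hp.sm (fun x hx q h a1 a2 => S.hp.mono x hx q o a1 a2 (c1 q h ▸ hbo.le)) τ hτ),
      by linarith, S.neg_of hz u1 hb hk (by linarith)⟩
  · have rb : Rb A δ a α b (L.lam (y + pt L.X (gw o (θ • e b)))) :=
      ⟨L.wt _ v1, by linarith, by linarith, by linarith, by linarith⟩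
    have := S.join1 hz hb hk rb (S.rb_st hb ho hbo.le) fun s t hs ht => rb.wt.cm hs (by
      rcases w3_ne ht with rfl | rfl | rfl
      · linarith [rb.hv]
      · linarith [rb.hv]
      · rw [v2, one_smul, Pi.add_apply, gw_self]
        simp only [Pi.smul_apply, smul_eq_mul, ← Finset.mul_sum, sum_e]
        rw [e_apply, if_neg hbo.ne']
        exact ne_of_gt (by linarith [g.le hy]))
    rwa [L.pos _ v1] at this

/-- **the one-sided condition** -/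
theorem join_all {n : ℕ} (hn : Rch0 A z n) (hy : y ∈ BB α L tp tn) (h0 : 0 < tp y) {u : ℝ}
    (hu : u < 0) (h : ∃ b ∈ A, δ ≤ L.lam y b ∧ ∃ k : ℤ, u = k + L.uu z (a + 4 * α) b y) :
    ∃ q : E × ℝ, q.1 ∈ QQ a α L ∧ JoinedIn (GG z a α L tp tn (u - (n + 2)) (u + (n + 2))) (y, u) q := by
  have k0 := kap_nonneg L
  have k1 := S.k10
  have k3 := S.hi
  have ha : a + 4 * α < 1 / 2 := by linarith
  obtain ⟨b, hb, g, hm⟩ := LC.exists_low hz hy.1
  obtain ⟨k, hk⟩ : ∃ k : ℤ, u = k + L.uu z (a + 4 * α) b y := by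
    obtain ⟨c, hc, g', k, rfl⟩ := h
    have e := fun b c => LC.uu_change (b := b) (b' := c) hz ha hy.1 (by linarith [S.p_le hy])
      (by linarith [S.m_le hy])
    rcases LC.cm_of_le hy.1 g' (g.le hy.1) with n | n
    · exact ⟨k + z c b, by rw [e c b hc hb g' (g.le hy.1) n]; push_cast; ring⟩
    · exact ⟨k - z b c, by rw [e b c hb hc (g.le hy.1) g' n]; push_cast; ring⟩
  have e1 : L.uu z (a + 4 * α) b y = tau (a + 4 * α) (L.w (SP A z b) y) := by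
    rw [LC.uu, (tau_zero_iff ha).2 (hm.trans (by linarith [S.m_le hy])), sub_zero]
  have e2 := tau_nonneg (a + 4 * α) (L.w (SP A z b) y)
  have e3 := tau_le_one (a + 4 * α) (L.w (SP A z b) y)
  have hk1 : k ≤ -1 := by
    have : (k : ℝ) < 0 := by linarith
    have : k < 0 := by exact_mod_cast this
    omega
  obtain ⟨y', a1, a2, j1⟩ := S.join_gather hz hy h0 hb (g.le hy.1) (k := k) (by
    rcases hk1.eq_or_lt with rfl | n
    · refine .inr (not_le.1 fun n => ?_)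
      rw [e1, (tau_one_iff ha).2 n] at hk
      norm_num [hk] at hu
    · exact .inl (by omega)) hk1
  obtain ⟨o, ho, hbo, j2⟩ := S.join_raise hz j1.target_mem.1.1 j1.target_mem.2.1 hb hk1 a1 a2
  obtain ⟨q, hq, j3⟩ := S.join_rc hz (hn b hb o ho hbo k) hk1 hb ho hbo
  have n0 : (0 : ℝ) ≤ n := Nat.cast_nonneg n
  refine ⟨q, hq, hk ▸ ((j1.trans j2).mono (GG_mono ?_ ?_)).trans (j3.mono (GG_mono ?_ ?_))⟩
  all_goals push_cast; linarith

end Stg

end Crest.Agent.X212.Mol27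
end
end

-- ▼ part X212/Mol27/Both
section

/-!
# X212 / Mol27 (helper27): points of both colours walk to the suture
-/

set_option autoImplicit false
set_option linter.unusedSectionVars false

open Set Filter Topology Function Metric Classical
open scoped ContDiff NNReal Real
open Crest.Agent.X212.Sm10 Crest.Agent.X212.Hp13 Crest.Agent.X212.Alg36

noncomputable section

namespace Crest.Agent.X212.Mol27

variable {E : Type} [NormedAddCommGroup E] [NormedSpace ℝ E]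
  {P : Type} [PartialOrder P] [Fintype P] {A : Set P} {z : P → P → ℤ} {δ a0 a α : ℝ}
  {L : LC E A δ} {tp tn : E → ℝ} {y : E} {b : P}

theorem join_seg {T : Set E} {w : E} (h : ∀ τ ∈ Icc (0 : ℝ) 1, y + τ • w ∈ T) :
    JoinedIn T y (y + w) :=
  JoinedIn.ofLine (f := fun τ : ℝ => y + τ • w) (by fun_prop) (by simp) (by simp)
    (by rintro _ ⟨τ, hτ, rfl⟩; exact h τ hτ)

namespace Stg

variable (S : Stg a0 a α L tp tn)
include S

theorem sixth' (hy : y ∈ BB α L tp tn) : wS Aᶜ (L.lam y) ≤ 1 / 7 := by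
  linarith [LC.le_w hy.1 Aᶜ, LC.w_not hy.1, S.p_le hy, S.m_le hy, L.small, S.hi, S.k10, kap_nonneg L]

theorem adj1 (hy : y ∈ BB α L tp tn) (h0 : 0 < tp y) (hb : b ∈ A) (g : δ ≤ L.lam y b) :
    ∃ y', wS (Op A) (L.lam y') ≤ a + α ∧ wS (Om A) (L.lam y') = wS (Om A) (L.lam y) ∧
      1 / 2 ≤ L.lam y' b ∧
      JoinedIn {x | x ∈ BB α L tp tn ∧ 0 < tp x ∧ tn y ≤ tn x ∧ δ ≤ L.lam x b} y y' := by
  have k0 := kap_nonneg L
  have k1 := S.k10
  have k2 := S.lo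
  have k3 := S.hi
  have k5 := L.δ0
  have hW := L.wt y hy.1
  set d : P → ℝ := fun q => max (L.lam y q - δ) 0 with hd
  have d0 : ∀ q, 0 ≤ d q := fun q => le_max_right _ _
  have d1 : wS (Op A) (L.lam y) - Fintype.card P * δ ≤ wS (Op A) d := by
    have := wS_le_card (S := Op A) (μ := L.lam y - d) k5.le fun q _ => by
      linarith [le_max_left (L.lam y q - δ) 0, show (L.lam y - d) q = L.lam y q - d q from rfl]
    rw [wS_sub] at this
    linarith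
  obtain ⟨θ, t0, t1, t2, t3⟩ : ∃ θ : ℝ, 0 ≤ θ ∧ θ ≤ 1 ∧ wS (Op A) (L.lam y) - θ * wS (Op A) d ≤ a + α ∧
      (θ = 0 ∨ a + α ≤ wS (Op A) (L.lam y) - θ * wS (Op A) d) := by
    rcases le_or_gt (wS (Op A) (L.lam y)) (a + α) with n | n
    · exact ⟨0, le_rfl, zero_le_one, by simpa using n, .inl rfl⟩
    · have p0 : 0 < wS (Op A) d := by linarith
      refine ⟨(wS (Op A) (L.lam y) - (a + α)) / wS (Op A) d, div_nonneg (by linarith) p0.le,
        (div_le_one p0).2 (by linarith), ?_, .inr ?_⟩ <;> rw [div_mul_cancel₀ _ p0.ne'] <;> linarith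
  set c : P → ℝ := fun q => if q = b then 0 else if q ∈ Op A then θ * d q else if q ∈ A then d q else 0
    with hc
  have c0 : ∀ q, 0 ≤ c q := fun q => by
    simp only [hc]; split_ifs
    exacts [le_rfl, mul_nonneg t0 (d0 q), d0 q, le_rfl]
  have c1 : ∀ q, c q ≤ d q := fun q => by
    simp only [hc]; split_ifs
    exacts [d0 q, mul_le_of_le_one_left (d0 q) t1, le_rfl, d0 q]
  have c2 : ∀ q, c q ≠ 0 → δ + c q ≤ L.lam y q := fun q h => by
    have h1 := ((c0 q).lt_of_ne' h).trans_le (c1 q)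
    have h2 : d q = L.lam y q - δ := max_eq_left (le_of_lt (by simpa [hd] using h1))
    linarith [c1 q]
  have c3 : wS (Op A) c = θ * wS (Op A) d := by
    rw [← wS_smul]
    refine le_antisymm (wS_le_wS fun q hq => ?_) (wS_le_wS fun q hq => ?_) <;>
      simp [hc, hq, show q ≠ b from fun e => hq.1 (e ▸ hb)]
  have c4 : ∀ q ∈ Om A, c q = 0 := fun q hq => by
    simp [hc, hq.1, show q ∉ Op A from fun n => not_om L.conv n hq]
  have w1 : ∀ T, b ∉ T → wS T (gw b c) = -wS T c := fun T h => by rw [wS_gw, io_not h]; ring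
  have s1 := S.sixth' hy
  have s2 : wS Aᶜ (L.lam y + gw b c) ≤ 1 / 7 := by
    rw [wS_add, w1 Aᶜ fun n => n hb]; linarith [wS_nonneg c0 Aᶜ]
  obtain ⟨r1, r2⟩ := LC.seg hy.1 g c0 c2 (by linarith) (by linarith)
  obtain ⟨v1, v2, -⟩ := r1 1 (right_mem_Icc.2 zero_le_one)
  rw [one_smul] at v1 v2
  rw [one_smul] at v2
  refine ⟨y + pt L.X (gw b c), ?_, ?_, ?_, join_seg fun τ hτ => ?_⟩
  · rw [v2, wS_add, w1 _ fun n => n.1 hb, c3]
    linarith
  · rw [v2, wS_add, w1 _ fun n => n.1 hb, wS_zero c4, neg_zero, add_zero]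
  · have hW' := L.wt _ v1
    have e1 := wS_compl (Aᶜ ∪ {b}) (L.lam (y + pt L.X (gw b c)))
    have e2 : wS (Aᶜ ∪ {b})ᶜ (L.lam (y + pt L.X (gw b c))) ≤ Fintype.card P * δ :=
      wS_le_card k5.le fun q hq => by
        have h1 : q ∈ A := not_not.1 fun n => hq (.inl n)
        have h2 : q ≠ b := fun n => hq (.inr n)
        rw [v2, Pi.add_apply, gw_ne c h2]
        simp only [hc, if_neg h2, if_neg (show q ∉ Op A from fun n => n.1 h1), if_pos h1]
        linarith [le_max_left (L.lam y q - δ) 0]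
    have e3 := wS_union_le hW'.nonneg Aᶜ {b}
    have e4 : wS {b} (L.lam (y + pt L.X (gw b c))) = L.lam (y + pt L.X (gw b c)) b := by simp [wS, io]
    rw [hW'.sum] at e1
    rw [← v2] at s2
    linarith [L.small]
  obtain ⟨u1, u2, u3⟩ := r1 τ hτ
  refine ⟨⟨u1, le_trans (neg_le_neg_iff.1 (r2 _ S.hp.sm.neg
      (fun x hx q _ a1 a2 => S.hp.gather_le hb hx a1 a2) τ hτ)) hy.2.1,
    le_trans (neg_le_neg_iff.1 (r2 _ S.hn.sm.neg
      (fun x hx q _ a1 a2 => S.hn.gather_le hb hx a1 a2) τ hτ)) hy.2.2⟩, ?_, ?_, ?_⟩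
  · rcases t3 with rfl | t3
    · refine h0.trans_le (r2 _ S.hp.sm (fun x hx q h a1 a2 => ?_) τ hτ)
      exact (S.hp.inv x hx q b a1 a2 (fun n => h (by simp [hc, n])) fun n => n.1 hb).ge
    · refine S.tp_pos u1 ?_
      have := LC.le_w u1 (Op A)
      rw [u2, wS_add, wS_smul, w1 _ fun n => n.1 hb, c3] at this
      have : [Nonempty P] → 0 < α := S.α_pos
      have := @this ⟨b⟩
      simp only [LC.p]
      nlinarith [hτ.2, mul_nonneg t0 (wS_nonneg d0 (Op A))]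
  · exact r2 _ S.hn.sm (fun x hx q h a1 a2 =>
      (S.hn.inv x hx q b a1 a2 (fun n => h (c4 q n)) fun n => n.1 hb).ge) τ hτ
  · rw [u2, Pi.add_apply, Pi.smul_apply, gw_self, smul_eq_mul]
    nlinarith [hτ.1, Finset.single_le_sum (fun q _ => c0 q) (Finset.mem_univ b)]

theorem adj2 (hy : y ∈ BB α L tp tn) (h0 : 0 < tp y) (hb : b ∈ A) (h1 : wS (Op A) (L.lam y) ≤ a + α)
    (h2 : 1 / 2 ≤ L.lam y b) : ∃ y', wS (Op A) (L.lam y') = a + α ∧
      wS (Om A) (L.lam y') = wS (Om A) (L.lam y) ∧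
      JoinedIn {x | x ∈ BB α L tp tn ∧ 0 < tp x ∧ tn y ≤ tn x ∧ δ ≤ L.lam x b} y y' := by
  have k0 := kap_nonneg L
  have k1 := S.k10
  have k2 := S.lo
  have k3 := S.hi
  have k4 := le_kap L b
  have hW := L.wt y hy.1
  obtain ⟨o, ho, g, -⟩ := S.hp.str y hy.1 h0
  set θ := a + α - wS (Op A) (L.lam y) with hθ
  have t0 : 0 ≤ θ := sub_nonneg.2 h1
  have t1 := wS_nonneg hW.nonneg (Op A)
  have gb : δ ≤ L.lam y b := by linarith
  have hbo := op_lt L.conv hb ho (LC.cm_of_le hy.1 gb (g.le hy.1))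
  have w1 : ∀ T, wS T (gw o (θ • e b)) = θ * (io T o - io T b) := fun T => by
    rw [wS_gw, wS_smul, wS_e]
    simp only [Pi.smul_apply, smul_eq_mul, ← Finset.mul_sum, sum_e]
    ring
  have w2 : gw o (θ • e b) b = -θ := by rw [gw_ne _ hbo.ne]; simp [e_apply]
  have s1 := wS_not hb hW.nonneg (LC.cm_lam hy.1 gb)
  have s2 := LC.le_w hy.1 (Om A)
  have s3 : L.w (Om A) y ≤ _ := S.m_le hy
  have c1 : ∀ q, (θ • e b) q ≠ 0 → q = b := fun q h => by_contra fun n => h (by simp [e_apply, n])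
  obtain ⟨r1, r2⟩ := LC.seg (c := θ • e b) hy.1 (g.le hy.1) (fun q => mul_nonneg t0 (e_nonneg _ _))
    (fun q h => by rw [c1 q h]; simp [e_apply]; linarith) (by linarith)
    (by rw [wS_add, w1, io_mem (show o ∈ Aᶜ from ho.1), io_not (S := Aᶜ) fun n => n hb]; linarith)
  have r3 : ∀ τ : ℝ, wS (Op A) (L.lam y + τ • gw o (θ • e b)) = wS (Op A) (L.lam y) + τ * θ ∧
      wS (Om A) (L.lam y + τ • gw o (θ • e b)) = wS (Om A) (L.lam y) ∧
      (L.lam y + τ • gw o (θ • e b)) b = L.lam y b - τ * θ := fun τ => by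
    rw [wS_add, wS_add, wS_smul, wS_smul, w1, w1, io_mem ho, io_not (fun n => n.1 hb),
      io_not (not_om L.conv ho), io_not (fun n => n.1 hb), Pi.add_apply, Pi.smul_apply, w2]
    simp [sub_eq_add_neg]
  obtain ⟨-, v2, -⟩ := r1 1 (right_mem_Icc.2 zero_le_one)
  obtain ⟨v3, v4, -⟩ := r3 1
  rw [← v2, one_smul] at v3 v4
  refine ⟨_, by linarith, v4, join_seg fun τ hτ => ?_⟩
  obtain ⟨u1, u2, -⟩ := r1 τ hτ
  obtain ⟨u3, -, u5⟩ := r3 τ
  rw [← u2] at u3 u5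
  have u6 : τ * θ ≤ θ := mul_le_of_le_one_left t0 hτ.2
  have i1 : ∀ x ∈ L.U, ∀ q, (θ • e b) q ≠ 0 → δ ≤ L.lam x q → δ ≤ L.lam x o →
      fderiv ℝ tn x (L.X o - L.X q) = 0 := fun x hx q h a1 a2 =>
    S.hn.inv x hx q o a1 a2 (fun n => n.1 (c1 q h ▸ hb)) fun n => not_om L.conv ho n
  refine ⟨⟨u1, S.hp.fat _ u1 ((LC.w_le u1 _).trans (by linarith)), le_trans (neg_le_neg_iff.1
    (r2 _ S.hn.sm.neg (fun x hx q h a1 a2 => ?_) τ hτ)) hy.2.2⟩,
    h0.trans_le (r2 _ S.hp.sm (fun x hx q h a1 a2 => S.hp.mono x hx q o a1 a2 (c1 q h ▸ hbo.le)) τ hτ),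
    r2 _ S.hn.sm (fun x hx q h a1 a2 => (i1 x hx q h a1 a2).ge) τ hτ, by linarith⟩
  rw [fderiv_fun_neg, neg_apply, i1 x hx q h a1 a2, neg_zero]

theorem adj (hy : y ∈ BB α L tp tn) (h0 : 0 < tp y) (hb : b ∈ A) (g : δ ≤ L.lam y b) :
    ∃ y', wS (Op A) (L.lam y') = a + α ∧ wS (Om A) (L.lam y') = wS (Om A) (L.lam y) ∧
      JoinedIn {x | x ∈ BB α L tp tn ∧ 0 < tp x ∧ tn y ≤ tn x ∧ δ ≤ L.lam x b} y y' := by
  obtain ⟨y1, a1, a2, a3, j1⟩ := S.adj1 hy h0 hb g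
  have t := j1.target_mem
  obtain ⟨y2, b1, b2, j2⟩ := S.adj2 t.1 t.2.1 hb a1 a3
  exact ⟨y2, b1, b2.trans a2, j1.trans (j2.mono fun x h => ⟨h.1, h.2.1, t.2.2.1.trans h.2.2.1, h.2.2.2⟩)⟩

/-- points of both colours -/
theorem join_both (hy : y ∈ BB α L tp tn) (h0 : 0 < tp y) (h1 : 0 < tn y) (hb : b ∈ A)
    (g : δ ≤ L.lam y b) : ∃ y' ∈ QQ a α L,
      JoinedIn {x | x ∈ BB α L tp tn ∧ 0 < tp x ∧ 0 < tn x ∧ δ ≤ L.lam x b} y y' := by
  obtain ⟨y1, a1, -, j1⟩ := S.adj hy h0 hb g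
  have t := j1.target_mem
  obtain ⟨y2, b1, b2, j2⟩ := S.dual.adj (y := y1) (And.intro t.1.1 ⟨t.1.2.2, t.1.2.1⟩) (h1.trans_le t.2.2.1) hb t.2.2.2
  have t2 : y2 ∈ L.U := j2.target_mem.1.1
  have e1 : wS (Op A) (L.lam y2) = a + α := b2.trans a1
  have e2 : wS (Om A) (L.lam y2) = a + α := b1
  have k0 := kap_nonneg L
  have k1 := S.k10
  refine ⟨y2, ⟨t2, ⟨?_, ?_⟩, ?_, ?_⟩, JoinedIn.trans (y := y1) (j1.mono fun x h => ?_)
    (j2.mono fun x h => ?_)⟩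
  rotate_right 2
  · exact ⟨h.1, h.2.1, h1.trans_le h.2.2.1, h.2.2.2⟩
  · exact ⟨⟨h.1.1, h.1.2.2, h.1.2.1⟩, t.2.1.trans_le h.2.2.1, h.2.1, h.2.2.2⟩
  · simp only [LC.p]; linarith [LC.le_w t2 (Op A)]
  · simp only [LC.p]; linarith [LC.w_le t2 (Op A)]
  · simp only [LC.m]; linarith [LC.le_w t2 (Om A)]
  · simp only [LC.m]; linarith [LC.w_le t2 (Om A)]

theorem phi_pnt (hz : Zc A z) (hy : y ∈ BB α L tp tn) (hb : b ∈ A) (g : δ ≤ L.lam y b) (k : ℤ) :
    L.phi z (a + 4 * α) y = Circle.exp (2 * π * (k + L.uu z (a + 4 * α) b y)) := by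
  have k0 := kap_nonneg L
  have k1 := S.k10
  rw [add_comm (k : ℝ), LC.exp_add_int]
  exact LC.phi_eq hz (by linarith [S.hi]) hy.1 (by linarith [S.p_le hy]) (by linarith [S.m_le hy]) hb g

/-- **the condition**, in radians -/
theorem join (hz : Cnd A z) : ∃ D : ℝ, ∀ y ∈ BB α L tp tn, ∀ u : ℝ,
    L.phi z (a + 4 * α) y = Circle.exp u → (0 < tp y ∧ u < 0) ∨ (0 < tn y ∧ 0 < u) ∨
      (0 < tp y ∧ 0 < tn y) → ∃ q : E × ℝ, q.1 ∈ QQ a α L ∧ JoinedIn {p : E × ℝ |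
        p.1 ∈ BB α L tp tn ∧ L.phi z (a + 4 * α) p.1 = Circle.exp p.2 ∧ ((0 < tp p.1 ∧ p.2 < 0) ∨
          (0 < tn p.1 ∧ 0 < p.2) ∨ (0 < tp p.1 ∧ 0 < tn p.1)) ∧ |p.2 - u| ≤ D} (y, u) q := by
  obtain ⟨n, hn⟩ := hz.up
  obtain ⟨n', hn'⟩ := hz.dn
  have n0 : (0 : ℝ) ≤ n := Nat.cast_nonneg n
  have n0' : (0 : ℝ) ≤ n' := Nat.cast_nonneg n'
  have p0 := Real.two_pi_pos
  refine ⟨2 * π * (n + n' + 2), fun y hy u hu h => ?_⟩
  obtain ⟨b, hb, g⟩ := LC.exists_bigA hy.1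
  obtain ⟨k, hk⟩ : ∃ k : ℤ, u = 2 * π * (k + L.uu z (a + 4 * α) b y) := by
    obtain ⟨k, hk⟩ := Circle.exp_eq_exp.1 (hu.symm.trans (S.phi_pnt hz.zc hy hb (g.le hy.1) 0))
    exact ⟨k, by rw [hk]; push_cast; ring⟩
  set s := k + L.uu z (a + 4 * α) b y with hs
  have ab : ∀ {t r : ℝ}, r ≤ n + n' + 2 → s - r ≤ t → t ≤ s + r →
      |2 * π * t - u| ≤ 2 * π * (n + n' + 2) := fun h1 h2 h3 => by
    rw [hk, ← mul_sub, abs_mul, abs_of_pos p0]
    exact mul_le_mul_of_nonneg_left (abs_le.2 ⟨by linarith, by linarith⟩) p0.le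
  rcases h with h | h | h
  · obtain ⟨q, hq, j⟩ := S.join_all hz.zc hn hy h.1 (u := s) (neg_of_mul_neg_right (hk ▸ h.2) p0.le)
      ⟨b, hb, g.le hy.1, k, rfl⟩
    refine ⟨(q.1, 2 * π * q.2), hq, hk ▸ (j.map (f := fun p : E × ℝ => (p.1, 2 * π * p.2))
      (by fun_prop)).mono ?_⟩
    rintro _ ⟨p, ⟨a1, a2, a3, a4, a5, c, hc, gc, l, e⟩, rfl⟩
    refine ⟨a1, ?_, .inl ⟨a2, mul_neg_of_pos_of_neg p0 a3⟩, hk ▸ ab (by linarith) a4 a5⟩
    exact (S.phi_pnt hz.zc a1 hc gc l).trans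
      (congrArg (fun t => Circle.exp (2 * π * t)) (congrArg Prod.snd e).symm)
  · obtain ⟨q, hq, j⟩ := S.dual.join_all hz.zc.dual hn' (y := y) ⟨hy.1, hy.2.2, hy.2.1⟩ h.1 (u := -s)
      (neg_lt_zero.2 (pos_of_mul_pos_right (hk ▸ h.2) p0.le))
      ⟨b, hb, g.le hy.1, -k, by rw [LC.uu_dual, hs]; push_cast; ring⟩
    refine ⟨(q.1, 2 * π * -q.2), ⟨hq.1, hq.2.2, hq.2.1⟩, ?_⟩
    have := j.map (f := fun p : E × ℝ => (p.1, 2 * π * -p.2)) (by fun_prop)
    simp only [neg_neg, ← hk] at this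
    refine this.mono ?_
    rintro _ ⟨p, ⟨a1, a2, a3, a4, a5, c, hc, gc, l, e⟩, rfl⟩
    have a1' : p.1 ∈ BB α L tp tn := ⟨a1.1, a1.2.2, a1.2.1⟩
    refine ⟨a1', ?_, .inr (.inl ⟨a2, mul_pos p0 (neg_pos.2 a3)⟩),
      ab (r := n' + 2) (by linarith) (by linarith) (by linarith)⟩
    refine (S.phi_pnt hz.zc a1' hc gc (-l)).trans (congrArg (fun t => Circle.exp (2 * π * t)) ?_)
    have e' : p.2 = l + -L.uu z (a + 4 * α) c p.1 :=
      (congrArg Prod.snd e).trans (congrArg ((l : ℝ) + ·) (LC.uu_dual _ _))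
    rw [e']
    push_cast
    ring
  · obtain ⟨y', hq, j⟩ := S.join_both hy h.1 h.2 hb (g.le hy.1)
    refine ⟨(y', 2 * π * (k + L.uu z (a + 4 * α) b y')), hq, hk ▸ (j.map_continuousOn
      (f := fun x => (x, 2 * π * (k + L.uu z (a + 4 * α) b x))) (continuousOn_id.prodMk
        (continuousOn_const.mul (continuousOn_const.add ((L.contDiffOn_uu z _ b).continuousOn.mono
          fun x h => h.1.1))))).mono ?_⟩
    rintro _ ⟨x, ⟨a1, a2, a3, a4⟩, rfl⟩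
    refine ⟨a1, S.phi_pnt hz.zc a1 hb a4 k, .inr (.inr ⟨a2, a3⟩), hk ▸ ab (r := 2) (by linarith) ?_ ?_⟩
    · linarith [LC.uu_le (L := L) (z := z) (a := a + 4 * α) b y, LC.le_uu (L := L) (z := z) (a := a + 4 * α) b x]
    · linarith [LC.uu_le (L := L) (z := z) (a := a + 4 * α) b x, LC.le_uu (L := L) (z := z) (a := a + 4 * α) b y]

end Stg

end Crest.Agent.X212.Mol27
end
end

-- ▼ part X212/Mol27/Chain

/-!
# X212 / Mol27 (helper27): a combinatorial hierarchy is a chain of smooth stages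

* `Cht L v ι V` : the chart `ι` carries `v` to `V`;  `Stg.pre`, `Stg.cd` : one stage;
* `chain`, `chain_start` : the chain;  `last` : the last stage for a field changed on the plateau.
-/

set_option autoImplicit false
set_option linter.unusedSectionVars false

open Set Filter Topology Function Metric Classical
open scoped ContDiff NNReal Real Manifold
open Crest.Agent.X212.Sm10 Crest.Agent.X212.Hp13 Crest.Agent.X212.Alg36
open Crest.Agent.X212.Dr59 Crest.Agent.X212.Hel40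
open Crest.Agent.X212.Sep15 (EE CM)

noncomputable section

namespace Crest.Agent.X212.Mol27

section gen

variable {E : Type} [NormedAddCommGroup E] [NormedSpace ℝ E]
  {P Q : Type} [PartialOrder P] [Fintype P] [PartialOrder Q] [Fintype Q]
  {A : Set P} {B : Set Q} {pr : Q → P} {z : P → P → ℤ} {δ a0 a c α : ℝ} {L : LC E A δ}
  {L' : LC E B δ} {tp tn : E → ℝ} {y : E}

theorem LC.base_fld' [FiniteDimensional ℝ E] {R : Real P E} {W : Set E} (M : Mol (bary R) W δ)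
    (hδ : 0 < δ) (hs : Fintype.card P * δ ≤ 1 / 100) (hA : A.OrdConnected) (hW : IsOpen W)
    (hB : W ⊆ interior R.B) (hK : ∀ ν, IsWt ν → wS Aᶜ ν ≤ 1 / 6 → pt R.x ν ∈ W) {c : P → P → ℝ}
    (hc : ∀ s t, 0 < c s t) : (LC.base M hδ hs hA hW hB hK).Fld (M.fld c) := fun y _ =>
  ⟨rate c δ (M.Λ y), rate_nonneg (fun s t => (hc s t).le) hδ _,
    fun _ _ h => ⟨(rate_ne hδ h).1, (rate_ne hδ h).2.2⟩,
    fun _ _ h hs ht => rate_pos hδ h (hc _ _) hs ht, by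
      simp only [Mol.fld, upV, pt_sum, pt_smul, pt_sub, pt_e]
      rfl⟩

variable (L tp tn) in
/-- the plateau -/
def MM : Set E := {y | y ∈ L.U ∧ tp y = 0 ∧ tn y = 0}

theorem LC.O_mono (h : a ≤ c) : L.O a ⊆ L.O c := fun _ k => ⟨k.1, k.2.1.trans_le h, k.2.2.trans_le h⟩

theorem Rel.O_sub (hr : Rel L L' pr) (hl : Lft A B pr) (c : ℝ) : L'.O c ⊆ L.O c := fun _ k =>
  ⟨hr.sub k.1, (hr.p_le hl k.1).trans_lt k.2.1, (hr.dual.p_le hl.dual k.1).trans_lt k.2.2⟩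

theorem Stg.pos (S : Stg a0 a α L tp tn) (hy : y ∈ L.U) : 0 < α :=
  let ⟨b, _⟩ := LC.exists_bigA hy; @Stg.α_pos _ _ _ _ _ _ _ _ _ _ _ _ _ _ S ⟨b⟩

theorem Stg.BB_sub (S : Stg a0 a α L tp tn) : BB α L tp tn ⊆ L.O (a + 4 * α) := fun _ h =>
  ⟨h.1, by linarith [S.p_le h, S.pos h.1], by linarith [S.m_le h, S.pos h.1]⟩

theorem MM_sub : MM L tp tn ⊆ BB α L tp tn := fun _ h =>
  ⟨h.1, h.2.1 ▸ expNegInvGlue.nonneg _, h.2.2 ▸ expNegInvGlue.nonneg _⟩

theorem Stg.mem_MM (S : Stg a0 a α L tp tn) (hy : y ∈ L.U) (h1 : L.p y ≤ a0) (h2 : L.m y ≤ a0) :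
    y ∈ MM L tp tn := ⟨hy, S.hp.zero y hy h1, S.hn.zero y hy h2⟩

theorem Stg.O_sub (S : Stg a0 a α L tp tn) : L.O a0 ⊆ interior (MM L tp tn) :=
  interior_maximal (fun _ h => S.mem_MM h.1 h.2.1.le h.2.2.le) (L.isOpen_O a0)

theorem Stg.isCompact_BB (S : Stg a0 a α L tp tn) : IsCompact (BB α L tp tn) := by
  have hK := L.isCompact_K (c := 1 / 14) le_rfl
  have := ((S.hp.sm.continuousOn.prodMk S.hn.sm.continuousOn).mono
    fun _ h => h.1).preimage_isClosed_of_isClosed hK.isClosed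
    ((isClosed_Iic (a := sig (3 * α))).prod (isClosed_Iic (a := sig (3 * α))))
  have k : BB α L tp tn ⊆ {y | y ∈ L.U ∧ L.p y ≤ 1 / 14 ∧ L.m y ≤ 1 / 14} := fun y h =>
    ⟨h.1, by linarith [S.p_le h, S.pos h.1, S.hi], by linarith [S.m_le h, S.pos h.1, S.hi]⟩
  refine hK.of_isClosed_subset ?_ k
  convert this using 1
  exact Subset.antisymm (fun y h => ⟨k h, h.2⟩) fun y h => ⟨h.1.1, h.2⟩

theorem Stg.isCompact_QQ (S : Stg a0 a α L tp tn) : IsCompact (QQ a α L) := by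
  have hK := L.isCompact_K (c := a + 2 * α) (by linarith [S.hi, S.k10, kap_nonneg L])
  have := (((L.contDiffOn_w (Op A)).continuousOn.prodMk (L.contDiffOn_w (Om A)).continuousOn).mono
    fun _ h => h.1).preimage_isClosed_of_isClosed hK.isClosed
    ((isClosed_Ici (a := a + α / 2)).prod (isClosed_Ici (a := a + α / 2)))
  refine hK.of_isClosed_subset ?_ fun y h => ⟨h.1, h.2.1.2, h.2.2.2⟩
  convert this using 1
  exact Subset.antisymm (fun y h => ⟨⟨h.1, h.2.1.2, h.2.2.2⟩, h.2.1.1, h.2.2.1⟩)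
    fun y h => ⟨h.1.1, ⟨h.2.1, h.1.2.1⟩, h.2.2, h.1.2.2⟩

theorem Stg.of_QQ (S : Stg a0 a α L tp tn) (h : y ∈ QQ a α L) :
    y ∈ BB α L tp tn ∧ 0 < tp y ∧ 0 < tn y :=
  ⟨S.mem_BB h.1 h.2.1.2 h.2.2.2, S.tp_pos h.1 (by linarith [S.pos h.1, h.2.1.1]),
    S.dual.tp_pos h.1 (by linarith [S.pos h.1, h.2.2.1, show L.dual.p y = L.m y from rfl])⟩

/-- the colours of the first plateau `{p ≤ a, m ≤ a}` -/
theorem mm_start (hα : 0 < α) : MM L (bump a α L fun _ => 0) (bump (P := Pᵒᵈ) a α L.dual fun _ => 0) =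
    {y | y ∈ L.U ∧ L.p y ≤ a ∧ L.m y ≤ a} := Set.ext fun _ => and_congr_right fun hy =>
  and_congr (((pl0_zero L 0).bump_zero hα hy).trans (and_iff_right rfl))
    (((pl0_zero L.dual 0).bump_zero hα hy).trans (and_iff_right rfl))

theorem stg_bump (hp : Pl0 a0 L tp) (hn : Pl0 (P := Pᵒᵈ) a0 L.dual tn) (hα : 0 < α) (h0 : a0 ≤ c)
    (k10 : 10 * (Fintype.card P * δ) ≤ α) (lo : α ≤ c) (hi : c + 4 * α ≤ 1 / 16) :
    Stg a0 c α L (bump c α L tp) (bump (P := Pᵒᵈ) c α L.dual tn) :=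
  ⟨hp.bump hα h0 (by linarith [kap_nonneg L]),
    hn.bump hα h0 (show 2 * (Fintype.card P * δ) ≤ c by linarith [kap_nonneg L]),
    k10, lo, hi⟩

/-- the plateau of the next stage -/
theorem mm_next (hp : Pl0 a0 L tp) (hn : Pl0 (P := Pᵒᵈ) a0 L.dual tn) (hα : 0 < α)
    (hr : Rel L L' pr) (hc : Cv A B z pr) (hz : Zc A z) (h8 : c < 1 / 8)
    (h : ∀ y ∈ MM L tp tn, L.p y ≤ c ∧ L.m y + 2 * (Fintype.card P * δ) ≤ c) :
    MM L' (bump c α L' tp) (bump (P := Qᵒᵈ) c α L'.dual tn) = {y | y ∈ MM L tp tn ∧ L.phi z c y = 1} := by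
  have e1 := fun y hy => (hp.lift hr hc.toLft).bump_zero (a := c) (y := y) hα hy
  have e2 := fun y hy => (hn.lift hr.dual hc.toLft.dual).bump_zero (a := c) (y := y) hα hy
  refine Subset.antisymm (fun y ⟨h1, h2, h3⟩ => ?_) fun y ⟨h1, h2⟩ => ?_
  · have k : y ∈ MM L tp tn := ⟨hr.sub h1, ((e1 y h1).1 h2).1, ((e2 y h1).1 h3).1⟩
    exact ⟨k, (hr.phi_one hc hz h8 k.1 (h y k).1 (h y k).2).2 ⟨h1, ((e1 y h1).1 h2).2, ((e2 y h1).1 h3).2⟩⟩
  · obtain ⟨k1, k2, k3⟩ := (hr.phi_one hc hz h8 h1.1 (h y h1).1 (h y h1).2).1 h2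
    exact ⟨k1, (e1 y k1).2 ⟨h1.2.1, k2⟩, (e2 y k1).2 ⟨h1.2.2, k3⟩⟩

theorem Stg.low (S : Stg a0 a α L tp tn) (hy : y ∈ MM L tp tn) :
    L.p y ≤ a + 4 * α ∧ L.m y + 2 * (Fintype.card P * δ) ≤ a + 4 * α := by
  have h1 := S.hp.low y hy.1 hy.2.1
  have h2 : L.m y ≤ a := S.hn.low y hy.1 hy.2.2
  exact ⟨by linarith [S.pos hy.1], by linarith [S.k10, S.pos hy.1]⟩

theorem cnd_zero' {s : St} (hs : Ind26.Wk s) : Cnd s.A 0 :=
  ⟨zc_zero _, exists_rch0 (zc_zero _) (condP_zero hs.conv hs.sfp.nc) (condP_zero hs.conv hs.sfp.nc),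
    exists_rch0 (zc_zero _) (condM_dual (condM_zero hs.conv hs.sfm.nc))
      (condM_dual (condM_zero hs.conv hs.sfm.nc))⟩

theorem phi_zero (hc : c < 1 / 2) (hy : y ∈ L.O c) : L.phi 0 c y = 1 := by
  obtain ⟨b, hb, g⟩ := LC.exists_bigA hy.1
  have e1 : SP A 0 b = Op A := union_eq_self_of_subset_right fun _ h => absurd h.2.2 (lt_irrefl _)
  have e2 : SM A 0 b = Om A := union_eq_self_of_subset_right fun _ h => absurd h.2.2 (lt_irrefl _)
  rw [LC.phi_eq (zc_zero A) hc hy.1 hy.2.1.le hy.2.2.le hb (g.le hy.1), LC.uu, e1, e2,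
    (tau_zero_iff hc).2 (show L.w (Op A) y ≤ c from hy.2.1.le),
    (tau_zero_iff hc).2 (show L.w (Om A) y ≤ c from hy.2.2.le)]
  simp

end gen

variable {P Q : Type} [PartialOrder P] [Fintype P] [PartialOrder Q] [Fintype Q]
  {A : Set P} {B : Set Q} {pr : Q → P} {z : P → P → ℤ} {δ a0 a c α : ℝ} {L : LC (EE 3) A δ}
  {L' : LC (EE 3) B δ} {tp tn : EE 3 → ℝ} {y : EE 3} {v : EE 3 → EE 3} {Y : CM 3} {V : Vf Y}
  {ι : PartialDiffeomorph (𝓡 3) (𝓡 3) (EE 3) Y ∞}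

variable (L v ι V) in
/-- the chart carries `v` to `V` -/
structure Cht : Prop where
  fld : L.Fld v
  src : L.O (1 / 16) ⊆ ι.source
  eq : ∀ y ∈ L.O (1 / 16), (V (ι y) : EE 3) = mf (𝓡 3) (𝓡 3) ι y (v y)

theorem Cht.lift (h : Cht L v V ι) (hr : Rel L L' pr) (hl : Lft A B pr) : Cht L' v V ι :=
  ⟨hr.fld hl h.fld, (hr.O_sub hl _).trans h.src, fun y hy => h.eq y (hr.O_sub hl _ hy)⟩

theorem symm_apply (hy : y ∈ ι.source) : ι.symm (ι y) = y := ι.toPartialEquiv.left_inv hy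

theorem cmd_symm {F H N : Type} [NormedAddCommGroup F] [NormedSpace ℝ F] [TopologicalSpace H]
    {J : ModelWithCorners ℝ F H} [TopologicalSpace N] [ChartedSpace H N] {f : EE 3 → N}
    (hy : y ∈ ι.source) (hf : ContMDiffAt (𝓡 3) J ∞ f y) : ContMDiffAt (𝓡 3) J ∞ (f ∘ ι.symm) (ι y) :=
  ContMDiffAt.comp (ι y) (by rwa [symm_apply hy]) (ι.symm.contMDiffOn.contMDiffAt
    (ι.open_target.mem_nhds (ι.toPartialEquiv.map_source hy)))

theorem Cht.dr_eq (h : Cht L v V ι) (hy : y ∈ L.O (1 / 16)) {f : EE 3 → ℝ} (hf : ContDiffAt ℝ ∞ f y) :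
    dr (f ∘ ι.symm) V (ι y) = fderiv ℝ f y (v y) := by
  have h1 := mf_comp ((cmd_symm (h.src hy) hf.contMDiffAt).mdifferentiableAt (by simp))
    (ι.mdifferentiableAt (by simp) (h.src hy))
  have h2 : (f ∘ ι.symm) ∘ ι =ᶠ[𝓝 y] f :=
    eventually_of_mem (ι.open_source.mem_nhds (h.src hy)) fun x hx => congrArg f (symm_apply hx)
  rw [mf_congr h2, mf_eq_fderiv] at h1
  rw [dr, h.eq y hy, h1]
  rfl

theorem isOpen_img {T : Set (EE 3)} (hT : IsOpen T) (h : T ⊆ ι.source) : IsOpen (ι '' T) :=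
  ι.toOpenPartialHomeomorph.isOpen_image_of_subset_source hT h

theorem phi_symm_ev (hz : Zc A z) (hc : c < 1 / 2) (hy : y ∈ L.O c) (hs : y ∈ ι.source) {b : P}
    (hb : b ∈ A) (g : L.Big y b) : L.phi z c ∘ ι.symm =ᶠ[𝓝 (ι y)]
      fun x => Circle.exp (((fun y => 2 * π * L.uu z c b y) ∘ ι.symm) x) := by
  have h1 : Tendsto ι.symm (𝓝 (ι y)) (𝓝 y) := by
    have := (cmd_symm (f := id) hs contMDiffAt_id).continuousAt.tendsto
    rwa [id_comp, symm_apply hs] at this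
  exact h1.eventually (LC.phi_ev hz hc hy hb g)

namespace Stg

variable (S : Stg a0 a α L tp tn) (h : Cht L v V ι)
include S h

theorem O16 : L.O (a + 4 * α) ⊆ L.O (1 / 16) := LC.O_mono S.hi

theorem src : L.O (a + 4 * α) ⊆ ι.source := (S.O16 h).trans h.src

theorem rt_eq (hz : Zc A z) (hy : y ∈ L.O (a + 4 * α)) {b : P} (hb : b ∈ A) (g : L.Big y b) :
    rt (L.phi z (a + 4 * α) ∘ ι.symm) V (ι y) = 2 * π * fderiv ℝ (L.uu z (a + 4 * α) b) y (v y) := by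
  have c1 := (L.contDiffOn_uu z (a + 4 * α) b).contDiffAt (L.isOpen.mem_nhds hy.1)
  have c2 : ContDiffAt ℝ ∞ (fun y => 2 * π * L.uu z (a + 4 * α) b y) y := contDiffAt_const.mul c1
  rw [rt_congr (phi_symm_ev hz (by linarith [S.hi]) hy (S.src h hy) hb g), rt,
    dl_exp (cmd_symm (S.src h hy) c2.contMDiffAt), ← dr, h.dr_eq (S.O16 h hy) c2,
    fderiv_const_mul (c1.differentiableAt (by simp))]
  rfl

/-- one stage -/
def pre (hα : 0 < α) (hz : Zc A z) :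
    Pre V (ι '' MM L tp tn) (ι '' {y | y ∈ MM L tp tn ∧ L.phi z (a + 4 * α) y = 1}) where
  O := ι '' L.O (a + 4 * α)
  tp := tp ∘ ι.symm
  tm := (fun y => -tn y) ∘ ι.symm
  r := sig (3 * α)
  φ := L.phi z (a + 4 * α) ∘ ι.symm
  op := isOpen_img (L.isOpen_O _) (S.src h)
  sp := by
    rintro _ ⟨y, hy, rfl⟩
    exact (cmd_symm (S.src h hy) (S.hp.sm.contDiffAt (L.isOpen.mem_nhds hy.1)).contMDiffAt).contMDiffWithinAt
  sm := by
    rintro _ ⟨y, hy, rfl⟩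
    exact (cmd_symm (S.src h hy)
      (S.hn.sm.contDiffAt (L.isOpen.mem_nhds hy.1)).neg.contMDiffAt).contMDiffWithinAt
  p0 := by
    rintro _ ⟨y, hy, rfl⟩
    rw [comp_apply, symm_apply (S.src h hy)]
    exact S.hp.nn y hy.1
  m0 := by
    rintro _ ⟨y, hy, rfl⟩
    rw [comp_apply, symm_apply (S.src h hy)]
    exact neg_nonpos.2 (S.hn.nn y hy.1)
  pv := by
    rintro _ ⟨y, hy, rfl⟩
    rw [h.dr_eq (S.O16 h hy) (S.hp.sm.contDiffAt (L.isOpen.mem_nhds hy.1))]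
    exact S.hp.fld_nonneg h.fld hy.1
  mv := by
    rintro _ ⟨y, hy, rfl⟩
    rw [h.dr_eq (S.O16 h hy) (S.hn.sm.contDiffAt (L.isOpen.mem_nhds hy.1)).neg, fderiv_fun_neg,
      neg_apply, ← map_neg]
    exact S.hn.fld_nonneg h.fld.dual hy.1
  ly := by
    rintro _ ⟨y, hy, rfl⟩ - - k
    rw [h.dr_eq (S.O16 h hy) (S.hp.sm.contDiffAt (L.isOpen.mem_nhds hy.1)),
      h.dr_eq (S.O16 h hy) (S.hn.sm.contDiffAt (L.isOpen.mem_nhds hy.1)).neg, fderiv_fun_neg,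
      neg_apply, ← map_neg]
    rcases (S.hp.nn y hy.1).eq_or_lt with e | e
    · exact add_pos_of_nonneg_of_pos (S.hp.fld_nonneg h.fld hy.1) (S.hn.fld_pos h.fld.dual hy.1
        ((S.hn.nn y hy.1).lt_of_ne' fun e' => k ⟨y, ⟨hy.1, e.symm, e'⟩, rfl⟩))
    · exact add_pos_of_pos_of_nonneg (S.hp.fld_pos h.fld hy.1 e) (S.hn.fld_nonneg h.fld.dual hy.1)
  meq x := by
    constructor
    · rintro ⟨y, hy, rfl⟩
      have k := S.BB_sub (MM_sub hy)
      simp only [comp_apply, symm_apply (S.src h k), neg_eq_zero]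
      exact ⟨⟨y, k, rfl⟩, hy.2⟩
    · rintro ⟨⟨y, hy, rfl⟩, k⟩
      simp only [comp_apply, symm_apply (S.src h hy), neg_eq_zero] at k
      exact ⟨y, ⟨hy.1, k⟩, rfl⟩
  rpos := expNegInvGlue.pos_of_pos (by linarith)
  cpt := by
    convert S.isCompact_BB.image_of_continuousOn
      (ι.contMDiffOn.continuousOn.mono (S.BB_sub.trans (S.src h))) using 1
    ext x
    constructor
    · rintro ⟨⟨y, hy, rfl⟩, k⟩
      simp only [comp_apply, symm_apply (S.src h hy), neg_le_neg_iff] at k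
      exact ⟨y, ⟨hy.1, k⟩, rfl⟩
    · rintro ⟨y, hy, rfl⟩
      have k := S.BB_sub hy
      simp only [mem_ofPred_eq, comp_apply, symm_apply (S.src h k), neg_le_neg_iff]
      exact ⟨⟨y, k, rfl⟩, hy.2⟩
  sφ := by
    rintro _ ⟨y, hy, rfl⟩
    obtain ⟨b, hb, g⟩ := LC.exists_bigA hy.1
    exact ((csm_exp (cmd_symm (S.src h hy) (contDiffAt_const.mul ((L.contDiffOn_uu z _ b).contDiffAt
      (L.isOpen.mem_nhds hy.1))).contMDiffAt)).congr_of_eventuallyEq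
      (phi_symm_ev hz (by linarith [S.hi]) hy (S.src h hy) hb g)).contMDiffWithinAt
  φv := by
    rintro _ ⟨y, hy, rfl⟩
    obtain ⟨b, hb, g⟩ := LC.exists_bigA hy.1
    rw [S.rt_eq h hz hy hb g]
    exact mul_nonneg Real.two_pi_pos.le (h.fld.uu_nonneg hz (by linarith [S.hi]) hy.1 hb)
  φs := by
    rintro _ ⟨y, hy, rfl⟩ k
    obtain ⟨b, hb, g, k1⟩ := h.fld.uu_pos hz (by linarith [S.hi]) hy.1 (S.low hy).1 (S.low hy).2
      fun e => k ⟨y, ⟨hy, e⟩, rfl⟩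
    rw [S.rt_eq h hz (S.BB_sub (MM_sub hy)) hb g]
    exact mul_pos Real.two_pi_pos k1
  meq' x := by
    constructor
    · rintro ⟨y, hy, rfl⟩
      exact ⟨⟨y, hy.1, rfl⟩, by rw [comp_apply, symm_apply (S.src h (S.BB_sub (MM_sub hy.1)))]; exact hy.2⟩
    · rintro ⟨⟨y, hy, rfl⟩, k⟩
      rw [comp_apply, symm_apply (S.src h (S.BB_sub (MM_sub hy)))] at k
      exact ⟨y, ⟨hy, k⟩, rfl⟩

theorem mem_B (hα : 0 < α) (hz : Zc A z) {x : Y} :
    x ∈ (S.pre h hα hz).B (S.pre h hα hz).r ↔ x ∈ ι '' BB α L tp tn := by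
  constructor
  · rintro ⟨⟨y, hy, rfl⟩, k⟩
    simp only [pre, comp_apply, symm_apply (S.src h hy), neg_le_neg_iff] at k
    exact ⟨y, ⟨hy.1, k⟩, rfl⟩
  · rintro ⟨y, hy, rfl⟩
    have k := S.BB_sub hy
    simp only [Pre.B, pre, mem_ofPred_eq, comp_apply, symm_apply (S.src h k), neg_le_neg_iff]
    exact ⟨⟨y, k, rfl⟩, hy.2⟩

/-- the stage is conditioned -/
theorem cd (hα : 0 < α) (hz : Cnd A z) : (S.pre h hα hz.zc).Cd false := by
  obtain ⟨D, hD⟩ := S.join hz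
  refine ⟨D, ι '' QQ a α L, S.isCompact_QQ.image_of_continuousOn (ι.contMDiffOn.continuousOn.mono
    fun y hy => S.src h (S.BB_sub (S.of_QQ hy).1)), ?_, fun q hq k => ?_⟩
  · rintro _ ⟨y, hy, rfl⟩
    have k := S.of_QQ hy
    have k' := S.BB_sub k.1
    refine ⟨⟨y, k', rfl⟩, (S.mem_B h hα hz.zc).2 ⟨y, k.1, rfl⟩, ?_⟩
    simp only [pre, comp_apply, symm_apply (S.src h k'), neg_lt_zero]
    exact k.2
  obtain ⟨x, u⟩ := q
  obtain ⟨y, hy, rfl⟩ := (S.mem_B h hα hz.zc).1 k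
  obtain ⟨-, k1⟩ := hq
  simp only [pre, comp_apply, symm_apply (S.src h (S.BB_sub hy)), neg_lt_zero] at k1
  obtain ⟨q', a1, j⟩ := hD y hy u k1.1 k1.2
  refine ⟨(ι q'.1, q'.2), ⟨_, a1, rfl⟩, (j.map_continuousOn (f := fun p => (ι p.1, p.2))
    ((ι.contMDiffOn.continuousOn.comp continuousOn_fst fun p hp => S.src h (S.BB_sub hp.1)).prodMk
      continuousOn_snd)).mono ?_⟩
  rintro _ ⟨p, ⟨b1, b2, b3, b4⟩, rfl⟩
  refine ⟨⟨⟨_, S.BB_sub b1, rfl⟩, ?_⟩, (S.mem_B h hα hz.zc).2 ⟨_, b1, rfl⟩, b4⟩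
  simp only [pre, comp_apply, symm_apply (S.src h (S.BB_sub b1)), neg_lt_zero]
  exact ⟨b2, b3⟩

end Stg

theorem hier_wk {s : St} (h : Ind26.Hier s) : Ind26.Wk s := by
  cases h with
  | fin h => exact h.toWk
  | step h => exact h.wk

/-- **the chain of stages** -/
theorem chain {s : St} (h : Ind26.Hier s) : ∃ n N : ℕ, Fintype.card s.P ≤ N ∧
    ∀ (δ a0 a α : ℝ) (L : LC (EE 3) s.A δ) (tp tn : EE 3 → ℝ) (v : EE 3 → EE 3) (Y : CM 3) (V : Vf Y)
      (ι : PartialDiffeomorph (𝓡 3) (𝓡 3) (EE 3) Y ∞), Stg a0 a α L tp tn → Cht L v V ι → 0 < α →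
      a0 ≤ a → 10 * (N * δ) ≤ α → a + 4 * (n + 1) * α ≤ 1 / 16 →
      ∃ (t : St) (L' : LC (EE 3) t.A δ) (a' : ℝ) (tp' tn' : EE 3 → ℝ), Ind26.End t ∧
        Stg a0 a' α L' tp' tn' ∧ Cht L' v V ι ∧ L'.U ⊆ L.U ∧
        Ch V false n (ι '' MM L tp tn) (ι '' MM L' tp' tn') := by
  induction h with
  | @fin s h => exact ⟨0, _, le_rfl, fun δ a0 a α L tp tn v Y V ι S C _ _ _ _ =>
      ⟨s, L, a, tp, tn, h, S, C, subset_rfl, rfl⟩⟩
  | @step s s' z pr h1 h2 h3 h4 ih =>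
    obtain ⟨n, N, hN, ih⟩ := ih
    refine ⟨n + 1, max N (Fintype.card s.P), le_max_right _ _,
      fun δ a0 a α L tp tn v Y V ι S C hα h0 k1 k2 => ?_⟩
    have n0 : (0 : ℝ) ≤ n * α := mul_nonneg (Nat.cast_nonneg n) hα.le
    push_cast at k2
    have k3 : 10 * (N * δ) ≤ α := le_trans (mul_le_mul_of_nonneg_left (mul_le_mul_of_nonneg_right
      (by exact_mod_cast le_max_left _ _) L.δ0.le) (by norm_num)) k1
    have k4 : 10 * (Fintype.card s'.P * δ) ≤ α := le_trans (mul_le_mul_of_nonneg_left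
      (mul_le_mul_of_nonneg_right (by exact_mod_cast hN) L.δ0.le) (by norm_num)) k3
    have hc := cv_of h3
    have hz := cnd_of h1.toTaut h2
    obtain ⟨L', hr⟩ := L.exists_lift hc.toLft (hier_wk h4).conv (by linarith [S.lo])
    obtain ⟨t, L'', a', tp', tn', e1, e2, e3, e4, e5⟩ := ih δ a0 (a + 4 * α) α L' _ _ v Y V ι
      (stg_bump (S.hp.lift hr hc.toLft) (S.hn.lift hr.dual hc.toLft.dual) hα (by linarith) k4
        (by linarith [S.lo]) (by linarith)) (C.lift hr hc.toLft) hα (by linarith) k3 (by linarith)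
    rw [mm_next S.hp.toPl0 S.hn.toPl0 hα hr hc hz.zc (by linarith [S.hi]) fun y hy => S.low hy] at e5
    exact ⟨t, L'', a', tp', tn', e1, e2, e3, e4.trans hr.sub, _, S.pre C hα hz.zc, S.cd C hα hz, e5⟩

/-- the chain from the first cut: `M₀ = {p ≤ a, m ≤ a, φ = 1}` -/
theorem chain_start {s s' : St} {z : s.P → s.P → ℤ} {pr : s'.P → s.P} (hc : Ind26.Cov s s' z pr)
    (hz : Zc s.A z) (h : Ind26.Hier s') : ∃ n N : ℕ, Fintype.card s.P ≤ N ∧
    ∀ (δ a c α : ℝ) (L : LC (EE 3) s.A δ) (v : EE 3 → EE 3) (Y : CM 3) (V : Vf Y)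
      (ι : PartialDiffeomorph (𝓡 3) (𝓡 3) (EE 3) Y ∞), Cht L v V ι → 0 < α → 10 * (N * δ) ≤ α →
      α ≤ a → a + α ≤ c → c + 4 * (n + 1) * α ≤ 1 / 16 →
      ∃ (t : St) (L' : LC (EE 3) t.A δ) (a' : ℝ) (tp' tn' : EE 3 → ℝ), Ind26.End t ∧
        Stg a a' α L' tp' tn' ∧ Cht L' v V ι ∧ L'.U ⊆ L.U ∧ Ch V false n
          (ι '' {y | y ∈ L.U ∧ L.p y ≤ a ∧ L.m y ≤ a ∧ L.phi z c y = 1}) (ι '' MM L' tp' tn') := by
  obtain ⟨n, N, hN, ih⟩ := chain h
  refine ⟨n, max N (Fintype.card s.P), le_max_right _ _, fun δ a c α L v Y V ι C hα k1 k5 k6 k2 => ?_⟩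
  have n0 : (0 : ℝ) ≤ n * α := mul_nonneg (Nat.cast_nonneg n) hα.le
  have k0 : ∀ m : ℕ, m ≤ max N (Fintype.card s.P) → 10 * (m * δ) ≤ α := fun m hm =>
    le_trans (mul_le_mul_of_nonneg_left (mul_le_mul_of_nonneg_right (by exact_mod_cast hm) L.δ0.le)
      (by norm_num)) k1
  have k3 := k0 _ (le_max_left _ _)
  have k4 := k0 _ (hN.trans (le_max_left _ _))
  have k7 := k0 _ (le_max_right _ _)
  have hc := cv_of hc
  obtain ⟨L', hr⟩ := L.exists_lift hc.toLft (hier_wk h).conv (by linarith)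
  have hp := ((pl0_zero L a).bump hα le_rfl (by linarith [kap_nonneg L])).toPl0
  have hn := ((pl0_zero L.dual a).bump hα le_rfl
    (show 2 * (Fintype.card s.P * δ) ≤ a by linarith [kap_nonneg L])).toPl0
  obtain ⟨t, L'', a', tp', tn', e1, e2, e3, e4, e5⟩ := ih δ a c α L' _ _ v Y V ι
    (stg_bump (hp.lift hr hc.toLft) (hn.lift hr.dual hc.toLft.dual) hα (by linarith) k4
      (by linarith) (by linarith)) (C.lift hr hc.toLft) hα (by linarith) k3 k2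
  rw [mm_next hp hn hα hr hc hz (by linarith) (fun y hy => by
    rw [mm_start hα] at hy
    exact ⟨by linarith [hy.2.1], by linarith [hy.2.2, kap_nonneg L]⟩), mm_start hα] at e5
  exact ⟨t, L'', a', tp', tn', e1, e2, e3, e4.trans hr.sub, by simpa only [mem_ofPred_eq, and_assoc] using e5⟩

end Crest.Agent.X212.Mol27
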