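import Crest.Agent.X212.Mol27.Lc
import Crest.Agent.X212.Ind26.Defs

-- ▼ part X212/Mol27/Lift
section

/-!
# X212 / Mol27 (helper27): lifting coordinates along a cover of stars

* `Lft A B π`, `Cv A B z π` : `Ind26.Lift`, `Ind26.Cov` for unbundled posets (self-dual);
* `Rel L L' π` : `L'` are the lifted coordinates;  `LC.exists_lift`.
-/

set_option autoImplicit false
set_option linter.unusedSectionVars false

open Set Filter Topology Function Metric Classical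
open scoped ContDiff NNReal
open Crest.Agent.X212.Sm10 Crest.Agent.X212.Hp13 Crest.Agent.X212.Alg36

noncomputable section

namespace Crest.Agent.X212.Mol27

variable {E : Type} [NormedAddCommGroup E] [NormedSpace ℝ E]
  {P Q : Type} [PartialOrder P] [Fintype P] [PartialOrder Q] [Fintype Q]

/-- `π` identifies `B` with `A` and stars with stars -/
structure Lft (A : Set P) (B : Set Q) (π : Q → P) : Prop where
  mono : StrictMono π
  bij : BijOn π B A
  star : ∀ b ∈ B, BijOn π {q | Cm b q} {x | Cm (π b) x}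
  refl : ∀ b ∈ B, ∀ q q', Cm b q → Cm b q' → π q ≤ π q' → q ≤ q'

/-- `B` is `A` cut along `z` -/
structure Cv (A : Set P) (B : Set Q) (z : P → P → ℤ) (π : Q → P) : Prop extends Lft A B π where
  up : ∀ b ∈ B, ∀ q, b ≤ q → (q ∈ B ↔ π q ∈ A ∧ z (π b) (π q) = 0)
  dn : ∀ b ∈ B, ∀ q, q ≤ b → (q ∈ B ↔ π q ∈ A ∧ z (π q) (π b) = 0)

theorem cv_of {s s' : St} {z : s.P → s.P → ℤ} {π : s'.P → s.P} (h : Ind26.Cov s s' z π) :
    Cv s.A s'.A z π := ⟨⟨h.mono, h.bij, h.star, h.refl⟩, h.up, h.dn⟩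

theorem star_dual (b : P) : {q : Pᵒᵈ | Cm (P := Pᵒᵈ) b q} = {q : P | Cm b q} :=
  Set.ext fun _ => or_comm

variable {A : Set P} {B : Set Q} {π : Q → P} {z : P → P → ℤ} {b c q : Q} {μ : P → ℝ}

theorem Lft.dual (h : Lft A B π) : Lft (P := Pᵒᵈ) (Q := Qᵒᵈ) A B π :=
  ⟨h.mono.dual, h.bij, fun b hb => by rw [star_dual, star_dual]; exact h.star b hb,
    fun b hb q q' h1 h2 h3 => h.refl b hb q' q h2.symm h1.symm h3⟩

theorem Cv.dual (h : Cv A B z π) : Cv (P := Pᵒᵈ) (Q := Qᵒᵈ) A B (fun x y => z y x) π :=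
  ⟨h.toLft.dual, h.dn, h.up⟩

/-- the class of `b` -/
def cls (B : Set Q) (π : Q → P) (b : Q) : Set P := π '' {q | q ∈ B ∧ Cm b q}

theorem cls_dual (B : Set Q) (π : Q → P) (b : Q) :
    cls (P := Pᵒᵈ) (Q := Qᵒᵈ) B π b = cls B π b :=
  congrArg (π '' ·) (Set.ext fun _ => and_congr_right fun _ => or_comm)

/-- restriction of weights to the star of `b` -/
def res (π : Q → P) (b : Q) (μ : P → ℝ) (q : Q) : ℝ := if Cm b q then μ (π q) else 0

theorem res_cm (μ : P → ℝ) (h : Cm b q) : res π b μ q = μ (π q) := if_pos h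

theorem res_ne (h : res π b μ q ≠ 0) : Cm b q ∧ μ (π q) ≠ 0 := by
  unfold res at h
  split_ifs at h with k
  exacts [⟨k, h⟩, absurd rfl h]

/-- restriction as a linear map -/
def resL (π : Q → P) (b : Q) : (P → ℝ) →L[ℝ] Q → ℝ :=
  LinearMap.toContinuousLinearMap
    { toFun := res π b
      map_add' := fun μ ν => funext fun q => by by_cases h : Cm b q <;> simp [res, h]
      map_smul' := fun r μ => funext fun q => by by_cases h : Cm b q <;> simp [res, h] }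

namespace Lft

theorem cm (h : Lft A B π) {q r : Q} (k : Cm q r) : Cm (π q) (π r) := k.map h.mono.monotone

theorem cm' (h : Lft A B π) (hb : b ∈ B) {q r : Q} (hq : Cm b q) (hr : Cm b r)
    (k : Cm (π q) (π r)) : Cm q r := k.imp (h.refl b hb q r hq hr) (h.refl b hb r q hr hq)

theorem mem_cls (h : Lft A B π) (hb : b ∈ B) (hq : Cm b q) : π q ∈ cls B π b ↔ q ∈ B :=
  ⟨fun ⟨_, k, e⟩ => (h.star b hb).injOn k.2 hq e ▸ k.1, fun k => ⟨q, ⟨k, hq⟩, rfl⟩⟩

theorem sum_star (h : Lft A B π) (hb : b ∈ B) {F : Type} [AddCommMonoid F] {G : P → F}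
    (hG : ∀ x, G x ≠ 0 → Cm (π b) x) : ∑ q, (if Cm b q then G (π q) else 0) = ∑ x, G x := by
  rw [← Finset.sum_filter, ← Finset.sum_filter_of_ne (s := Finset.univ) (f := G)
    (p := fun x => Cm (π b) x) fun x _ => hG x]
  refine Finset.sum_nbij π (fun q hq => ?_) (fun q hq r hr => ?_) (fun x hx => ?_) fun _ _ => rfl
  · simpa using h.cm (Finset.mem_filter.1 hq).2
  · exact (h.star b hb).injOn (by simpa using hq) (by simpa using hr)
  · obtain ⟨q, hq, e⟩ := (h.star b hb).surjOn (show x ∈ {x | Cm (π b) x} by simpa using hx)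
    exact ⟨q, by simpa using hq, e⟩

theorem sum_res (h : Lft A B π) (hb : b ∈ B) (hμ : ∀ x, μ x ≠ 0 → Cm (π b) x) {F : Type}
    [AddCommGroup F] [Module ℝ F] (f : P → F) : ∑ q, res π b μ q • f (π q) = ∑ x, μ x • f x := by
  rw [← h.sum_star hb (G := fun x => μ x • f x) fun x k => hμ x (left_ne_zero_of_smul k)]
  exact Finset.sum_congr rfl fun q _ => by by_cases k : Cm b q <;> simp [res, k]

theorem pt_res (h : Lft A B π) (hb : b ∈ B) (hμ : ∀ x, μ x ≠ 0 → Cm (π b) x) (X : P → E) :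
    pt (X ∘ π) (res π b μ) = pt X μ := h.sum_res hb hμ X

theorem sum_res' (h : Lft A B π) (hb : b ∈ B) (hμ : ∀ x, μ x ≠ 0 → Cm (π b) x) :
    ∑ q, res π b μ q = ∑ x, μ x := by simpa using h.sum_res hb hμ fun _ => (1 : ℝ)

theorem wS_res (h : Lft A B π) (hb : b ∈ B) (hμ : ∀ x, μ x ≠ 0 → Cm (π b) x) {S : Set P}
    {T : Set Q} (hS : ∀ q, Cm b q → (q ∈ T ↔ π q ∈ S)) : wS T (res π b μ) = wS S μ := by
  have := h.sum_res hb hμ (io S)
  simp only [smul_eq_mul, mul_comm _ (io S _)] at this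
  rw [wS, wS, ← this]
  exact Finset.sum_congr rfl fun q _ => by
    by_cases k : Cm b q
    · simp only [io, hS q k]
    · simp [res, k]

theorem res_eq (h : Lft A B π) (hb : b ∈ B) (hc : c ∈ B) (k : Cm b c)
    (h1 : ∀ x, μ x ≠ 0 → Cm (π b) x) (h2 : ∀ x, μ x ≠ 0 → Cm (π c) x) : res π b μ = res π c μ := by
  funext q
  by_cases h0 : μ (π q) = 0
  · simp [res, h0]
  have : Cm b q ↔ Cm c q :=
    ⟨fun a => h.cm' hb k a (h2 _ h0), fun a => h.cm' hc k.symm a (h1 _ h0)⟩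
  simp only [res, this]

theorem exists_push (h : Lft A B π) (hb : b ∈ B) {w : Q → ℝ} (hw : ∀ q, w q ≠ 0 → Cm b q) :
    ∃ η : P → ℝ, res π b η = w ∧ ∀ x, η x ≠ 0 → ∃ q, Cm b q ∧ π q = x ∧ w q = η x := by
  have : Nonempty Q := ⟨b⟩
  choose! l hl hl' using fun x (hx : Cm (π b) x) => (h.star b hb).surjOn hx
  refine ⟨fun x => if Cm (π b) x then w (l x) else 0, funext fun q => ?_, fun x hx => ?_⟩
  · by_cases k : Cm b q
    · rw [res_cm _ k, if_pos (h.cm k), (h.star b hb).injOn (hl _ (h.cm k)) k (hl' _ (h.cm k))]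
    · rw [res, if_neg k, eq_comm]
      exact by_contra fun a => k (hw q a)
  · have k : Cm (π b) x := by_contra fun k => hx (if_neg k)
    exact ⟨l x, hl x k, hl' x k, (if_pos k).symm⟩

end Lft

/-- `L'` are the coordinates `L` lifted along `π` -/
structure Rel {δ : ℝ} (L : LC E A δ) (L' : LC E B δ) (π : Q → P) : Prop where
  sub : L'.U ⊆ L.U
  X : L'.X = L.X ∘ π
  eq : ∀ y ∈ L'.U, ∀ b ∈ B, δ ≤ L'.lam y b → L'.mu y = res π b (L.mu y) ∧ L'.lam y = res π b (L.lam y)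
  good : ∀ y ∈ L.U, ∀ b ∈ B, L.Big y (π b) → 3 / 4 < L.w (cls B π b) y → y ∈ L'.U ∧ L'.Big y b

theorem res_dual (π : Q → P) (b : Q) (μ : P → ℝ) :
    res (P := Pᵒᵈ) (Q := Qᵒᵈ) π b μ = res π b μ := funext fun q => by
  have : Cm (P := Qᵒᵈ) b q ↔ Cm b q := or_comm
  simp only [res, this]

theorem Rel.dual {δ : ℝ} {L : LC E A δ} {L' : LC E B δ} (h : Rel L L' π) :
    Rel L.dual L'.dual π :=
  ⟨h.sub, h.X, fun y hy b hb k => by rw [res_dual, res_dual]; exact h.eq y hy b hb k,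
    fun y hy b hb k k' => h.good y hy b hb k (by rwa [cls_dual] at k')⟩

namespace LC

variable {δ : ℝ} {L : LC E A δ} {y : E}

theorem cm_mu (hy : y ∈ L.U) {t : P} (ht : δ ≤ L.lam y t) : ∀ x, L.mu y x ≠ 0 → Cm t x :=
  fun x hx => (L.supp y hy x t hx ht).symm

theorem cm_lam (hy : y ∈ L.U) {t : P} (ht : δ ≤ L.lam y t) : ∀ x, L.lam y x ≠ 0 → Cm t x :=
  fun _ hx => (L.wt y hy).cm (ne_of_le ht) hx

variable (L B π) in
/-- `b` is a good base point at `y` -/
def Gd (y : E) (b : Q) : Prop := b ∈ B ∧ L.Big y (π b) ∧ 3 / 4 < L.w (cls B π b) y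

theorem Gd.res_eq (h : Lft A B π) (hy : y ∈ L.U) (hb : L.Gd B π y b) (hc : L.Gd B π y c) :
    res π b (L.mu y) = res π c (L.mu y) ∧ res π b (L.lam y) = res π c (L.lam y) := by
  obtain ⟨x, ⟨⟨q, hq, rfl⟩, q', hq', e⟩, hx⟩ := exists_big (L := L) (y := y)
    (S := cls B π b ∩ cls B π c) (by
      have := wS_union_inter (cls B π b) (cls B π c) (L.mu y)
      have h1 := w_le_one hy (cls B π b ∪ cls B π c)
      have h2 := hb.2.2
      have h3 := hc.2.2
      simp only [w] at *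
      linarith [L.small])
  obtain rfl := h.bij.injOn hq'.1 hq.1 e
  have k1 := hb.2.1.le hy
  have k2 := hc.2.1.le hy
  have k3 := hx.le hy
  exact ⟨(h.res_eq hb.1 hq.1 hq.2 (cm_mu hy k1) (cm_mu hy k3)).trans
      (h.res_eq hc.1 hq.1 hq'.2 (cm_mu hy k2) (cm_mu hy k3)).symm,
    (h.res_eq hb.1 hq.1 hq.2 (cm_lam hy k1) (cm_lam hy k3)).trans
      (h.res_eq hc.1 hq.1 hq'.2 (cm_lam hy k2) (cm_lam hy k3)).symm⟩

theorem Gd.ev (hy : y ∈ L.U) (hb : L.Gd B π y b) : ∀ᶠ x in 𝓝 y, x ∈ L.U ∧ L.Gd B π x b := by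
  have h0 := L.isOpen.mem_nhds hy
  have h1 := (continuous_apply (π b)).continuousAt.comp (L.smooth.continuousOn.continuousAt h0)
  have h2 := (L.contDiffOn_w (cls B π b)).continuousOn.continuousAt h0
  filter_upwards [h0, h1.eventually (lt_mem_nhds hb.2.1), h2.eventually (lt_mem_nhds hb.2.2)]
    with x a1 a2 a3
  exact ⟨a1, hb.1, a2, a3⟩

/-- **lifting** -/
theorem exists_lift (L : LC E A δ) (h : Lft A B π) (hB : B.OrdConnected)
    (hs : Fintype.card Q * δ ≤ 1 / 100) : ∃ L' : LC E B δ, Rel L L' π := by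
  set mu : E → Q → ℝ := fun y => if k : ∃ b, L.Gd B π y b then res π k.choose (L.mu y) else 0
  set lam : E → Q → ℝ := fun y => if k : ∃ b, L.Gd B π y b then res π k.choose (L.lam y) else 0
  have e1 : ∀ y ∈ L.U, ∀ b, L.Gd B π y b → mu y = res π b (L.mu y) := fun y hy b hb =>
    (dif_pos ⟨b, hb⟩).trans (Gd.res_eq h hy (Exists.choose_spec ⟨b, hb⟩) hb).1
  have e2 : ∀ y ∈ L.U, ∀ b, L.Gd B π y b → lam y = res π b (L.lam y) := fun y hy b hb =>
    (dif_pos ⟨b, hb⟩).trans (Gd.res_eq h hy (Exists.choose_spec ⟨b, hb⟩) hb).2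
  have v1 : ∀ y ∈ L.U, ∀ b, L.Gd B π y b → mu =ᶠ[𝓝 y] resL π b ∘ L.mu := fun y hy b hb =>
    (hb.ev hy).mono fun x hx => e1 x hx.1 b hx.2
  have v2 : ∀ y ∈ L.U, ∀ b, L.Gd B π y b → lam =ᶠ[𝓝 y] resL π b ∘ L.lam := fun y hy b hb =>
    (hb.ev hy).mono fun x hx => e2 x hx.1 b hx.2
  refine ⟨⟨{y | y ∈ L.U ∧ ∃ b, L.Gd B π y b}, L.X ∘ π, lam, mu, L.δ0, hs, hB, ?_, ?_, ?_, ?_, ?_, ?_,
    ?_, ?_, ?_, ?_, ?_, ?_⟩, fun _ k => k.1, rfl, ?_, ?_⟩
  · exact isOpen_iff_mem_nhds.2 fun y ⟨hy, b, hb⟩ => (hb.ev hy).mono fun x hx => ⟨hx.1, b, hx.2⟩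
  · rintro y ⟨hy, b, hb⟩
    exact (((resL π b).continuous.continuousAt.comp (L.cont.continuousAt
      (L.isOpen.mem_nhds hy))).congr (v2 y hy b hb).symm).continuousWithinAt
  · rintro y ⟨hy, b, hb⟩
    exact (((resL π b).contDiff.contDiffAt.comp y (L.smooth.contDiffAt
      (L.isOpen.mem_nhds hy))).congr_of_eventuallyEq (v1 y hy b hb)).contDiffWithinAt
  · rintro y ⟨hy, b, hb⟩
    rw [e2 y hy b hb]
    refine isWt_of (fun q => ?_) ((h.sum_res' hb.1 (cm_lam hy (hb.2.1.le hy))).trans (L.wt y hy).sum)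
      fun s t hs ht => h.cm' hb.1 (res_ne hs).1 (res_ne ht).1
        ((L.wt y hy).cm (res_ne hs).2 (res_ne ht).2)
    unfold res
    split_ifs
    exacts [(L.wt y hy).nonneg _, le_rfl]
  · rintro y ⟨hy, b, hb⟩
    rw [e2 y hy b hb, h.pt_res hb.1 (cm_lam hy (hb.2.1.le hy)), L.pos y hy]
  · intro ν hν k
    obtain ⟨b, hb, hbν⟩ := exists_gt (S := B) (μ := ν) (c := 3 * δ) (by linarith [L.δ0]) (by
      have := wS_compl B ν
      rw [hν.sum] at this
      linarith)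
    have b0 : ν b ≠ 0 := (by linarith [L.δ0] : 0 < ν b).ne'
    obtain ⟨η, h1, h2⟩ := h.exists_push hb fun q hq => hν.cm b0 hq
    have h3 : ∀ x, η x ≠ 0 → Cm (π b) x := fun x hx => let ⟨_, a, e, _⟩ := h2 x hx; e ▸ h.cm a
    have hη : IsWt η := isWt_of (fun x => by
        by_cases a : η x = 0
        · exact a.ge
        · obtain ⟨q, -, -, e⟩ := h2 x a
          exact e ▸ hν.nonneg q)
      (by rw [← h.sum_res' hb h3, h1, hν.sum]) fun s t hs ht => by
        obtain ⟨q, -, rfl, e⟩ := h2 s hs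
        obtain ⟨r, -, rfl, e'⟩ := h2 t ht
        exact h.cm (hν.cm (e ▸ hs) (e' ▸ ht))
    have h4 : wS B ν = wS (cls B π b) η := h1 ▸ h.wS_res hb h3 fun q hq => (h.mem_cls hb hq).symm
    have h5 : wS (cls B π b) η ≤ wS A η := wS_mono hη.nonneg fun _ _ ⟨q, a, e⟩ => e ▸ h.bij.mapsTo a.1
    have h6 := wS_compl B ν
    have h7 := wS_compl A η
    rw [hν.sum] at h6
    rw [hη.sum] at h7
    obtain ⟨r1, r2⟩ := L.real η hη (by linarith)
    have h8 : pt (L.X ∘ π) ν = pt L.X η := h1 ▸ h.pt_res hb h3 _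
    have h9 : η (π b) = ν b := by rw [← h1, res_cm _ Cm.rfl]
    have g : L.Gd B π (pt L.X η) b := ⟨hb, by
      have := lam_lt r1 (π b)
      rw [r2] at this
      show _ < _
      linarith, by
      have := le_w r1 (cls B π b)
      rw [r2] at this
      linarith [L.small]⟩
    rw [h8]
    exact ⟨⟨r1, b, g⟩, by rw [e2 _ r1 b g, r2, h1]⟩
  · rintro y ⟨hy, b, hb⟩ q
    rw [e1 y hy b hb]
    unfold res
    split_ifs
    exacts [L.nonneg y hy _, le_rfl]
  · rintro y ⟨hy, b, hb⟩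
    rw [e1 y hy b hb, h.sum_res' hb.1 (cm_mu hy (hb.2.1.le hy)), L.sum_one y hy]
  · rintro y ⟨hy, b, hb⟩ q
    rw [e1 y hy b hb, e2 y hy b hb]
    unfold res
    split_ifs
    exacts [L.close y hy _, by simpa using L.δ0]
  · rintro y ⟨hy, b, hb⟩ q t hq ht
    rw [e1 y hy b hb] at hq
    rw [e2 y hy b hb] at ht
    have a := res_ne (L.δ0.trans_le ht).ne'
    rw [res_cm _ a.1] at ht
    exact h.cm' hb.1 (res_ne hq).1 a.1 (L.supp y hy _ _ (res_ne hq).2 ht)
  · rintro y ⟨hy, b, hb⟩ w hw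
    rw [e2 y hy b hb] at hw
    obtain ⟨η, h1, h2⟩ := h.exists_push hb.1 fun q hq => (res_ne (L.δ0.trans_le (hw.2 q hq)).ne').1
    have h3 : ∀ x, η x ≠ 0 → Cm (π b) x := fun x hx => let ⟨_, a, e, _⟩ := h2 x hx; e ▸ h.cm a
    have := L.der y hy η ⟨by rw [← h.sum_res' hb.1 h3, h1, hw.1], fun x hx => by
      obtain ⟨q, a, rfl, e⟩ := h2 x hx
      simpa [res_cm _ a] using hw.2 q (e ▸ hx)⟩
    rw [(v1 y hy b hb).fderiv_eq, ((resL π b).hasFDerivAt.comp y (diff hy L.smooth).hasFDerivAt).fderiv,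
      ContinuousLinearMap.comp_apply, ← h1, h.pt_res hb.1 h3, this]
    rfl
  · rintro y ⟨hy, b, hb⟩
    have := h.wS_res hb.1 (cm_mu hy (hb.2.1.le hy)) (S := (cls B π b)ᶜ) (T := Bᶜ)
      fun q hq => not_congr (h.mem_cls hb.1 hq).symm
    rw [e1 y hy b hb, this]
    have h1 := w_compl hy (cls B π b)
    have h2 := hb.2.2
    simp only [w] at *
    linarith
  · rintro y ⟨hy, b, hb⟩ c hc k
    change δ ≤ lam y c at k
    rw [e2 y hy b hb] at k
    have a := res_ne (L.δ0.trans_le k).ne'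
    rw [res_cm _ a.1] at k
    exact ⟨(e1 y hy b hb).trans (h.res_eq hb.1 hc a.1 (cm_mu hy (hb.2.1.le hy)) (cm_mu hy k)),
      (e2 y hy b hb).trans (h.res_eq hb.1 hc a.1 (cm_lam hy (hb.2.1.le hy)) (cm_lam hy k))⟩
  · intro y hy b hb k k'
    refine ⟨⟨hy, b, hb, k, k'⟩, ?_⟩
    show 2 * δ < mu y b
    rw [e1 y hy b ⟨hb, k, k'⟩, res_cm _ Cm.rfl]
    exact k

end LC

namespace Rel

variable {δ : ℝ} {L : LC E A δ} {L' : LC E B δ} {y : E}

theorem lam_eq (h : Rel L L' π) (hy : y ∈ L'.U) (hq : L'.lam y q ≠ 0) : L'.lam y q = L.lam y (π q) := by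
  obtain ⟨b, hb, k⟩ := LC.exists_bigA hy
  rw [(h.eq y hy b hb (k.le hy)).2] at hq ⊢
  exact res_cm _ (res_ne hq).1

theorem mu_eq (h : Rel L L' π) (hy : y ∈ L'.U) (hq : L'.mu y q ≠ 0) : L'.mu y q = L.mu y (π q) := by
  obtain ⟨b, hb, k⟩ := LC.exists_bigA hy
  rw [(h.eq y hy b hb (k.le hy)).1] at hq ⊢
  exact res_cm _ (res_ne hq).1

theorem le (h : Rel L L' π) (hy : y ∈ L'.U) (hq : δ ≤ L'.lam y q) : δ ≤ L.lam y (π q) :=
  h.lam_eq hy (LC.ne_of_le hq) ▸ hq

theorem big (h : Rel L L' π) (hy : y ∈ L'.U) (hq : L'.Big y q) : L.Big y (π q) := by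
  have : L'.mu y q ≠ 0 := (lt_trans (by linarith [L.δ0]) hq).ne'
  rwa [LC.Big, h.mu_eq hy this] at hq

/-- big vertices lift -/
theorem exists_big (h : Rel L L' π) (hl : Lft A B π) (hy : y ∈ L'.U) (hb : b ∈ B)
    (k : δ ≤ L'.lam y b) {x : P} (hx : L.Big y x) : ∃ q, Cm b q ∧ π q = x ∧ L'.Big y q := by
  obtain ⟨q, hq, rfl⟩ := (hl.star b hb).surjOn (LC.cm_of_le (h.sub hy) (h.le hy k) (hx.le (h.sub hy)))
  exact ⟨q, hq, rfl, by rwa [LC.Big, (h.eq y hy b hb k).1, res_cm _ hq]⟩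

theorem w_eq (h : Rel L L' π) (hl : Lft A B π) (hy : y ∈ L'.U) (hb : b ∈ B) (k : δ ≤ L'.lam y b)
    {S : Set P} {T : Set Q} (hS : ∀ q, Cm b q → (q ∈ T ↔ π q ∈ S)) : L'.w T y = L.w S y := by
  rw [LC.w, (h.eq y hy b hb k).1]
  exact hl.wS_res hb (LC.cm_mu (h.sub hy) (h.le hy k)) hS

theorem p_le (h : Rel L L' π) (hl : Lft A B π) (hy : y ∈ L'.U) : L.p y ≤ L'.p y := by
  obtain ⟨b, hb, k⟩ := LC.exists_bigA hy
  rw [LC.p, ← h.w_eq hl hy hb (k.le hy) (S := Op A) (T := π ⁻¹' Op A) fun _ _ => Iff.rfl]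
  refine wS_mono (L'.nonneg y hy) fun q hq ⟨h1, a, ha, h2⟩ => ⟨fun n => h1 (hl.bij.mapsTo n), b, hb, ?_⟩
  exact (LC.cm_mu hy (k.le hy) q hq).elim id fun n =>
    absurd (L.conv.out ha (hl.bij.mapsTo hb) ⟨h2, hl.mono.monotone n⟩) h1

theorem fld (h : Rel L L' π) (hl : Lft A B π) {v : E → E} (hv : L.Fld v) : L'.Fld v := fun y hy => by
  obtain ⟨b, hb, k⟩ := LC.exists_bigA hy
  have k' := k.le hy
  have hy' := h.sub hy
  obtain ⟨c, h0, h1, h2, h3⟩ := hv y hy'
  have bg : ∀ q, Cm b q → L.Big y (π q) → L'.Big y q := fun q a n => by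
    rwa [LC.Big, (h.eq y hy b hb k').1, res_cm _ a]
  refine ⟨fun s t => if Cm b s then if Cm b t then c (π s) (π t) else 0 else 0, fun s t => ?_,
    fun s t a => ?_, fun s t a1 a2 a3 => ?_, ?_⟩
  · beta_reduce
    split_ifs
    exacts [h0 _ _, le_rfl, le_rfl]
  · beta_reduce at a
    have a1 : Cm b s := by_contra fun n => a (if_neg n)
    rw [if_pos a1] at a
    have a2 : Cm b t := by_contra fun n => a (if_neg n)
    rw [if_pos a2] at a
    obtain ⟨c1, c2, c3⟩ := h1 _ _ a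
    exact ⟨(hl.refl b hb s t a1 a2 c1.le).lt_of_ne fun e => c1.ne (e ▸ rfl), bg s a1 c2, bg t a2 c3⟩
  · beta_reduce
    rw [if_pos (LC.cm_of_le hy k' (a2.le hy)), if_pos (LC.cm_of_le hy k' (a3.le hy))]
    exact h2 _ _ (hl.mono a1) (h.big hy a2) (h.big hy a3)
  · rw [h3, ← hl.sum_star hb (G := fun s => ∑ t, c s t • (L.X t - L.X s)) fun s a => ?_]
    · refine Finset.sum_congr rfl fun s _ => ?_
      by_cases a : Cm b s
      · rw [if_pos a, ← hl.sum_star hb (G := fun t => c (π s) t • (L.X t - L.X (π s))) fun t a => ?_]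
        · exact Finset.sum_congr rfl fun t _ => by by_cases a' : Cm b t <;> simp [a, a', h.X]
        · exact LC.cm_of_le hy' (h.le hy k') ((h1 _ _ (left_ne_zero_of_smul a)).2.2.le hy')
      · simp [a]
    · obtain ⟨t, -, ht⟩ := Finset.exists_ne_zero_of_sum_ne_zero a
      exact LC.cm_of_le hy' (h.le hy k') ((h1 _ _ (left_ne_zero_of_smul ht)).2.1.le hy')

end Rel

end Crest.Agent.X212.Mol27
end
end

-- ▼ part X212/Mol27/Pl

/-!
# X212 / Mol27 (helper27): plateau functions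

* `sig`, `tau` : the profile functions;
* `Pl0`, `Pl` : the colour of `O₊` (use `L.dual` for `O₋`);  `Pl0.lift`, `Pl0.bump`.
-/

set_option autoImplicit false
set_option linter.unusedSectionVars false

open Set Filter Topology Function Metric Classical
open scoped ContDiff NNReal
open Crest.Agent.X212.Sm10 Crest.Agent.X212.Hp13 Crest.Agent.X212.Alg36

noncomputable section

namespace Crest.Agent.X212.Mol27

/-! ### profiles -/

/-- zero on the negative reals, strictly increasing on the positive reals -/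
abbrev sig : ℝ → ℝ := expNegInvGlue

theorem hasDerivAt_sig (x : ℝ) : HasDerivAt sig (deriv sig x) x :=
  ((expNegInvGlue.contDiff (n := 1)).differentiable (by simp) x).hasDerivAt

theorem deriv_sig_nonneg (x : ℝ) : 0 ≤ deriv sig x := expNegInvGlue.monotone.deriv_nonneg

theorem deriv_sig_pos {x : ℝ} (h : 0 < x) : 0 < deriv sig x := by
  have := (expNegInvGlue.hasDerivAt_polynomial_eval_inv_mul 1 x).deriv
  simp only [Polynomial.eval_one, one_mul, Polynomial.derivative_one, sub_zero, mul_one,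
    Polynomial.eval_pow, Polynomial.eval_X] at this
  rw [show deriv sig x = _ from this]
  exact mul_pos (pow_pos (inv_pos.2 h) 2) (expNegInvGlue.pos_of_pos h)

theorem sig_le_one (x : ℝ) : sig x ≤ 1 := by
  unfold sig expNegInvGlue
  split_ifs with h
  · exact zero_le_one
  · exact Real.exp_le_one_iff.2 (neg_nonpos.2 (inv_nonneg.2 (not_le.1 h).le))

theorem sig_lt {x y : ℝ} (h : 0 < y) (hxy : x < y) : sig x < sig y := by
  rcases le_or_gt x 0 with k | k
  · rw [sig, expNegInvGlue.zero_of_nonpos k]; exact expNegInvGlue.pos_of_pos h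
  · exact strictMonoOn_of_deriv_pos (convex_Ioi 0) (expNegInvGlue.contDiff (n := 0)).continuous.continuousOn
      (fun z hz => deriv_sig_pos (interior_subset hz)) k h hxy

theorem st_symm (x : ℝ) : Real.smoothTransition (1 - x) = 1 - Real.smoothTransition x := by
  have := (Real.smoothTransition.pos_denom x).ne'
  simp only [Real.smoothTransition, sub_sub_cancel]
  rw [add_comm (expNegInvGlue (1 - x))]
  field_simp
  ring

theorem deriv_st_pos {x : ℝ} (h0 : 0 < x) (h1 : x < 1) : 0 < deriv Real.smoothTransition x := by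
  have d := (hasDerivAt_sig x).div ((hasDerivAt_sig x).add
    ((hasDerivAt_sig (1 - x)).comp x ((hasDerivAt_id x).const_sub 1)))
    (Real.smoothTransition.pos_denom x).ne'
  rw [show deriv Real.smoothTransition x = _ from d.deriv]
  refine div_pos ?_ (pow_pos (Real.smoothTransition.pos_denom x) 2)
  have a1 := deriv_sig_pos h0
  have a2 := deriv_sig_nonneg (1 - x)
  have a3 : 0 < sig (1 - x) := expNegInvGlue.pos_of_pos (sub_pos.2 h1)
  have a4 : 0 < sig x := expNegInvGlue.pos_of_pos h0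
  simp only [Pi.add_apply, comp_apply]
  nlinarith [mul_pos a1 a3, mul_nonneg a4.le a2]

/-- `0` below `a`, `1` above `1 - a` -/
def tau (a x : ℝ) : ℝ := Real.smoothTransition ((x - a) / (1 - 2 * a))

section tau

variable {a x : ℝ}

theorem contDiff_tau (a : ℝ) : ContDiff ℝ ∞ (tau a) :=
  Real.smoothTransition.contDiff.comp ((contDiff_id.sub contDiff_const).div_const _)

theorem tau_nonneg (a x : ℝ) : 0 ≤ tau a x := Real.smoothTransition.nonneg _
theorem tau_le_one (a x : ℝ) : tau a x ≤ 1 := Real.smoothTransition.le_one _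

theorem tau_zero_iff (ha : a < 1 / 2) : tau a x = 0 ↔ x ≤ a := by
  rw [tau, Real.smoothTransition.zero_iff_nonpos, div_nonpos_iff]
  constructor
  · rintro (h | h) <;> linarith [h.1, h.2]
  · exact fun h => .inr ⟨by linarith, by linarith⟩

theorem tau_one_iff (ha : a < 1 / 2) : tau a x = 1 ↔ 1 - a ≤ x := by
  rw [tau, Real.smoothTransition.eq_one_iff_one_le, one_le_div (by linarith)]
  constructor <;> intro h <;> linarith

theorem tau_symm (ha : a < 1 / 2) (x : ℝ) : tau a (1 - x) = 1 - tau a x := by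
  have : (1 - 2 * a) ≠ 0 := by linarith
  rw [tau, tau, ← st_symm]
  congr 1
  rw [one_sub_div this]
  congr 1
  ring

theorem monotone_tau (ha : a < 1 / 2) : Monotone (tau a) := fun _ _ h =>
  Real.smoothTransition.monotone (div_le_div_of_nonneg_right (by linarith) (by linarith))

theorem hasDerivAt_tau (a x : ℝ) : HasDerivAt (tau a) (deriv (tau a) x) x :=
  ((contDiff_tau a).differentiable (by simp) x).hasDerivAt

theorem deriv_tau_pos (h0 : a < x) (h1 : x < 1 - a) : 0 < deriv (tau a) x := by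
  have k : 0 < 1 - 2 * a := by linarith
  have d := ((Real.smoothTransition.contDiff (n := 1)).differentiable (by simp) _).hasDerivAt.comp x
    (((hasDerivAt_id x).sub_const a).div_const (1 - 2 * a))
  rw [show deriv (tau a) x = _ from d.deriv]
  exact mul_pos (deriv_st_pos (div_pos (sub_pos.2 h0) k) ((div_lt_one k).2 (by simp; linarith)))
    (one_div_pos.2 k)

end tau

variable {E : Type} [NormedAddCommGroup E] [NormedSpace ℝ E]
  {P Q : Type} [PartialOrder P] [Fintype P] [PartialOrder Q] [Fintype Q]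
  {A : Set P} {B : Set Q} {π : Q → P} {δ a0 a α : ℝ} {L : LC E A δ} {L' : LC E B δ} {t : E → ℝ}
  {y : E}

theorem LC.fderiv_comp (hy : y ∈ L.U) {f : E → ℝ} (hf : ContDiffOn ℝ ∞ f L.U) {g : ℝ → ℝ} {g' : ℝ}
    (hg : HasDerivAt g g' (f y)) (u : E) : fderiv ℝ (fun x => g (f x)) y u = g' * fderiv ℝ f y u := by
  rw [show fderiv ℝ (fun x => g (f x)) y = _ from
    (hg.comp_hasFDerivAt y (LC.diff hy hf).hasFDerivAt).fderiv]
  rfl

theorem op_lt (hA : A.OrdConnected) {b o : P} (hb : b ∈ A) (ho : o ∈ Op A) (h : Cm b o) : b < o := by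
  obtain ⟨h1, a, ha, h2⟩ := ho
  rcases h with h | h
  · exact h.lt_of_ne fun e => h1 (e ▸ hb)
  · exact absurd (hA.out ha hb ⟨h2, h⟩) h1

theorem op_of_le (hA : A.OrdConnected) {s q : P} (hs : s ∈ Op A) (h : s ≤ q) : q ∈ Op A :=
  let ⟨h1, a, ha, h2⟩ := hs; ⟨fun n => h1 (hA.out ha n ⟨h2, h⟩), a, ha, h2.trans h⟩

theorem Lft.op (hl : Lft A B π) (hA : A.OrdConnected) {b q : Q} (hb : b ∈ B) (h : Cm b q)
    (hq : π q ∈ Op A) : q ∈ Op B :=
  ⟨fun n => hq.1 (hl.bij.mapsTo n), b, hb, h.elim id fun n =>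
    absurd (hl.mono.monotone n) (op_lt hA (hl.bij.mapsTo hb) hq (hl.cm h)).not_ge⟩

theorem LC.fderiv_p_nonneg (hy : y ∈ L.U) {s q : P} (hs : δ ≤ L.lam y s) (hq : δ ≤ L.lam y q)
    (h : s ∈ Op A → q ∈ Op A) : 0 ≤ fderiv ℝ L.p y (L.X q - L.X s) := by
  rw [LC.p, LC.fderiv_w hy hs hq, sub_nonneg]
  by_cases k : s ∈ Op A
  · rw [io_mem k, io_mem (h k)]
  · rw [io_not k]; exact io_nonneg _ _

variable (L a0 t) in
/-- a colour of `O₊` -/
structure Pl0 : Prop where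
  sm : ContDiffOn ℝ ∞ t L.U
  nn : ∀ y ∈ L.U, 0 ≤ t y
  le : ∀ y ∈ L.U, t y ≤ 2
  mono : ∀ y ∈ L.U, ∀ s q, δ ≤ L.lam y s → δ ≤ L.lam y q → s ≤ q → 0 ≤ fderiv ℝ t y (L.X q - L.X s)
  inv : ∀ y ∈ L.U, ∀ s q, δ ≤ L.lam y s → δ ≤ L.lam y q → s ∉ Op A → q ∉ Op A →
    fderiv ℝ t y (L.X q - L.X s) = 0
  str : ∀ y ∈ L.U, 0 < t y → ∃ o ∈ Op A, L.Big y o ∧
    ∀ b ∈ A, δ ≤ L.lam y b → 0 < fderiv ℝ t y (L.X o - L.X b)
  zero : ∀ y ∈ L.U, L.p y ≤ a0 → t y = 0

variable (L a0 a α t) in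
/-- a colour of `O₊` with threshold `a` -/
structure Pl : Prop extends Pl0 a0 L t where
  low : ∀ y ∈ L.U, t y = 0 → L.p y ≤ a
  fat : ∀ y ∈ L.U, L.p y ≤ a + 2 * α → t y ≤ sig (3 * α)
  thin : ∀ y ∈ L.U, t y ≤ sig (3 * α) → L.p y ≤ a + 3 * α

theorem pl0_zero (L : LC E A δ) (a0 : ℝ) : Pl0 a0 L fun _ => 0 :=
  ⟨contDiffOn_const, fun _ _ => le_rfl, fun _ _ => zero_le_two, fun _ _ _ _ _ _ _ => by simp,
    fun _ _ _ _ _ _ _ _ => by simp, fun _ _ h => absurd h (lt_irrefl _), fun _ _ _ => rfl⟩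

theorem Pl0.lift (h : Pl0 a0 L t) (hr : Rel L L' π) (hl : Lft A B π) : Pl0 a0 L' t where
  sm := h.sm.mono hr.sub
  nn y hy := h.nn y (hr.sub hy)
  le y hy := h.le y (hr.sub hy)
  mono y hy s q hs hq k := by
    rw [hr.X]
    exact h.mono y (hr.sub hy) _ _ (hr.le hy hs) (hr.le hy hq) (hl.mono.monotone k)
  inv y hy s q hs hq k k' := by
    obtain ⟨b, hb, g⟩ := LC.exists_bigA hy
    rw [hr.X]
    exact h.inv y (hr.sub hy) _ _ (hr.le hy hs) (hr.le hy hq)
      (fun n => k (hl.op L.conv hb (LC.cm_of_le hy (g.le hy) hs) n))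
      fun n => k' (hl.op L.conv hb (LC.cm_of_le hy (g.le hy) hq) n)
  str y hy k := by
    obtain ⟨b, hb, g⟩ := LC.exists_bigA hy
    obtain ⟨o, ho, k1, k2⟩ := h.str y (hr.sub hy) k
    obtain ⟨q, hq, rfl, k3⟩ := hr.exists_big hl hy hb (g.le hy) k1
    refine ⟨q, hl.op L.conv hb hq ho, k3, fun c hc k4 => ?_⟩
    rw [hr.X]
    exact k2 _ (hl.bij.mapsTo hc) (hr.le hy k4)
  zero y hy k := h.zero y (hr.sub hy) ((hr.p_le hl hy).trans k)

/-- the scale of the old colour -/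
def eps (α : ℝ) : ℝ := (sig (3 * α) - sig (2 * α)) / 2

theorem eps_pos (h : 0 < α) : 0 < eps α :=
  half_pos (sub_pos.2 (sig_lt (by linarith) (by linarith)))

theorem eps_le (α : ℝ) : eps α ≤ 1 / 2 := by
  unfold eps
  linarith [sig_le_one (3 * α), expNegInvGlue.nonneg (2 * α)]

variable (L a α t) in
/-- the new colour -/
def bump (y : E) : ℝ := eps α * t y + sig (L.p y - a)

theorem Pl0.bump_zero (h : Pl0 a0 L t) (hα : 0 < α) (hy : y ∈ L.U) :
    bump a α L t y = 0 ↔ t y = 0 ∧ L.p y ≤ a := by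
  rw [bump, add_eq_zero_iff_of_nonneg (mul_nonneg (eps_pos hα).le (h.nn y hy)) (expNegInvGlue.nonneg _),
    expNegInvGlue.zero_iff_nonpos, sub_nonpos, mul_eq_zero, or_iff_right (eps_pos hα).ne']

theorem Pl0.fderiv_bump (h : Pl0 a0 L t) (hy : y ∈ L.U) (u : E) : fderiv ℝ (bump a α L t) y u =
    eps α * fderiv ℝ t y u + deriv sig (L.p y - a) * fderiv ℝ L.p y u := by
  have d := ((LC.diff hy h.sm).hasFDerivAt.const_mul (eps α)).add
    ((hasDerivAt_sig (L.p y - a)).comp_hasFDerivAt y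
      ((LC.diff hy (L.contDiffOn_w (Op A))).hasFDerivAt.sub_const a))
  rw [show fderiv ℝ (bump a α L t) y = _ from d.fderiv]
  rfl

theorem Pl0.bump (h : Pl0 a0 L t) (hα : 0 < α) (h0 : a0 ≤ a) (h1 : 2 * (Fintype.card P * δ) ≤ a) :
    Pl a0 a α L (bump a α L t) where
  sm := (contDiffOn_const.mul h.sm).add
    (expNegInvGlue.contDiff.comp_contDiffOn ((L.contDiffOn_w _).sub contDiffOn_const))
  nn y hy := add_nonneg (mul_nonneg (eps_pos hα).le (h.nn y hy)) (expNegInvGlue.nonneg _)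
  le y hy := by
    have := mul_le_mul (eps_le α) (h.le y hy) (h.nn y hy) (by norm_num)
    unfold Mol27.bump
    linarith [sig_le_one (L.p y - a)]
  mono y hy s q hs hq k := by
    rw [h.fderiv_bump hy]
    exact add_nonneg (mul_nonneg (eps_pos hα).le (h.mono y hy s q hs hq k)) (mul_nonneg
      (deriv_sig_nonneg _) (LC.fderiv_p_nonneg hy hs hq fun n => op_of_le L.conv n k))
  inv y hy s q hs hq k k' := by
    rw [h.fderiv_bump hy, h.inv y hy s q hs hq k k', LC.p, LC.fderiv_w hy hs hq, io_not k, io_not k']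
    simp
  str y hy k := by
    have e1 : ∀ o ∈ Op A, L.Big y o → ∀ b ∈ A, δ ≤ L.lam y b → fderiv ℝ L.p y (L.X o - L.X b) = 1 :=
      fun o ho g b hb k => by
        rw [LC.p, LC.fderiv_w hy k (g.le hy), io_mem ho, io_not fun n => n.1 hb, sub_zero]
    rcases (h.nn y hy).eq_or_lt with e | e
    · have k' : a < L.p y := not_le.1 fun n => k.ne' ((h.bump_zero hα hy).2 ⟨e.symm, n⟩)
      obtain ⟨o, ho, g⟩ := LC.exists_big (h1.trans_lt k')
      refine ⟨o, ho, g, fun b hb k2 => ?_⟩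
      rw [h.fderiv_bump hy, e1 o ho g b hb k2, mul_one]
      exact add_pos_of_nonneg_of_pos (mul_nonneg (eps_pos hα).le (h.mono y hy b o k2 (g.le hy)
        (op_lt L.conv hb ho (LC.cm_of_le hy k2 (g.le hy))).le)) (deriv_sig_pos (sub_pos.2 k'))
    · obtain ⟨o, ho, g, k1⟩ := h.str y hy e
      refine ⟨o, ho, g, fun b hb k2 => ?_⟩
      rw [h.fderiv_bump hy, e1 o ho g b hb k2, mul_one]
      exact add_pos_of_pos_of_nonneg (mul_pos (eps_pos hα) (k1 b hb k2)) (deriv_sig_nonneg _)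
  zero y hy k := (h.bump_zero hα hy).2 ⟨h.zero y hy k, k.trans h0⟩
  low y hy k := ((h.bump_zero hα hy).1 k).2
  fat y hy k := by
    have := mul_le_mul_of_nonneg_left (h.le y hy) (eps_pos hα).le
    have h2 : sig (L.p y - a) ≤ sig (2 * α) := expNegInvGlue.monotone (by linarith)
    unfold Mol27.bump
    unfold eps at *
    linarith
  thin y hy k := by
    by_contra n
    have := sig_lt (x := 3 * α) (y := L.p y - a) (by linarith [not_le.1 n]) (by linarith [not_le.1 n])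
    unfold Mol27.bump at k
    linarith [mul_nonneg (eps_pos hα).le (h.nn y hy)]

theorem Pl0.fld_nonneg (h : Pl0 a0 L t) {v : E → E} (hv : L.Fld v) (hy : y ∈ L.U) :
    0 ≤ fderiv ℝ t y (v y) :=
  hv.nonneg hy fun s q k hs hq => h.mono y hy s q (hs.le hy) (hq.le hy) k.le

theorem Pl0.fld_pos (h : Pl0 a0 L t) {v : E → E} (hv : L.Fld v) (hy : y ∈ L.U) (k : 0 < t y) :
    0 < fderiv ℝ t y (v y) := by
  obtain ⟨b, hb, g⟩ := LC.exists_bigA hy
  obtain ⟨o, ho, k1, k2⟩ := h.str y hy k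
  exact hv.pos hy (fun s q k hs hq => h.mono y hy s q (hs.le hy) (hq.le hy) k.le)
    (op_lt L.conv hb ho (LC.cm_of_le hy (g.le hy) (k1.le hy))) g k1 (k2 b hb (g.le hy))

/-- `p` increases -/
theorem LC.Fld.p_nonneg {v : E → E} (hv : L.Fld v) (hy : y ∈ L.U) : 0 ≤ fderiv ℝ L.p y (v y) :=
  hv.w_nonneg hy fun _ _ k _ _ h => op_of_le L.conv h k.le

theorem LC.Fld.p_pos {v : E → E} (hv : L.Fld v) (hy : y ∈ L.U)
    (h : 2 * (Fintype.card P * δ) < L.p y) : 0 < fderiv ℝ L.p y (v y) :=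
  hv.w_pos hy (fun _ _ k _ _ h => op_of_le L.conv h k.le) h (by
    have h1 : L.w Aᶜ y < 1 / 4 := L.hv y hy
    have h2 : 0 ≤ L.m y := LC.w_nonneg hy _
    have h3 : L.w (Op A) y = L.p y := rfl
    linarith [LC.w_not hy, L.small])

/-- `m` decreases -/
theorem LC.Fld.m_nonpos {v : E → E} (hv : L.Fld v) (hy : y ∈ L.U) : fderiv ℝ L.m y (v y) ≤ 0 := by
  have := hv.dual.p_nonneg hy
  rwa [Pi.neg_apply, map_neg, neg_nonneg] at this

theorem LC.Fld.m_neg {v : E → E} (hv : L.Fld v) (hy : y ∈ L.U)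
    (h : 2 * (Fintype.card P * δ) < L.m y) : fderiv ℝ L.m y (v y) < 0 := by
  have := hv.dual.p_pos hy h
  rwa [Pi.neg_apply, map_neg, neg_pos] at this

end Crest.Agent.X212.Mol27
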